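import Vale.Agent.Lib.P321.SQ.Iter

/-!
P321, quantitative superpolynomial lower bound: existence of the constants and the base case.
-/

namespace Vale.Agent.P321.SP

open Finset Filter

theorem tail_le {H K : ℝ} {t : ℕ} (hH : 4 ≤ H) (ht : 4 * (t : ℝ) ≤ H) (hK : K ≤ H) :
    K * Real.exp (-(H ^ 2 / 2)) ≤ H ^ (-(t : ℤ)) := by
  have hH0 : 0 < H := by linarith
  have h1 : H ≤ Real.exp H := by
    have := Real.add_one_le_exp H
    linarith
  have h2 : H ^ t ≤ Real.exp (t * H) := by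
    rw [Real.exp_nat_mul]
    exact pow_le_pow_left₀ hH0.le h1 t
  have h3 : K * Real.exp (-(H ^ 2 / 2)) ≤ Real.exp H * Real.exp (-(H ^ 2 / 2)) :=
    mul_le_mul_of_nonneg_right (hK.trans h1) (Real.exp_pos _).le
  rw [zpow_neg, zpow_natCast, inv_eq_one_div, le_div_iff₀ (pow_pos hH0 t)]
  calc K * Real.exp (-(H ^ 2 / 2)) * H ^ t
      ≤ Real.exp H * Real.exp (-(H ^ 2 / 2)) * Real.exp (t * H) :=
        mul_le_mul h3 h2 (pow_nonneg hH0.le t) (by positivity)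
    _ = Real.exp (H + -(H ^ 2 / 2) + t * H) := by rw [Real.exp_add, Real.exp_add]
    _ ≤ 1 := by
        apply Real.exp_le_one_iff.2
        nlinarith only [hH, ht, hH0]

theorem pow128 (t : ℕ) : ((128 ^ t : ℕ) : ℝ) = 64 ^ t * 2 ^ t := by
  rw [← mul_pow]; norm_num

theorem bigq_exists {c : ℝ} (hc : 0 < c) :
    ∃ D t0 : ℕ, ∀ t : ℕ, t0 ≤ t → Bigq c D t (128 ^ t) := by
  obtain ⟨D, hD⟩ := exists_nat_gt (81 / c)
  have hcD : 81 ≤ c * D := by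
    rw [div_lt_iff₀ hc] at hD; linarith
  obtain ⟨t1, ht1⟩ := exists_nat_gt (1000 + D + 3 / c + 2 / c ^ 2)
  refine ⟨D, t1 + 1, fun t ht => ?_⟩
  have h2 : (t1 : ℝ) ≤ 2 ^ t := by
    have a1 : (t1 : ℝ) ≤ t := by exact_mod_cast (by omega : t1 ≤ t)
    have a2 : (t : ℝ) ≤ 2 ^ t := by exact_mod_cast (Nat.lt_two_pow_self (n := t)).le
    linarith
  have hD0 : (0 : ℝ) ≤ D := Nat.cast_nonneg D
  have hc3 : 0 < 3 / c := by positivity
  have hc2 : 0 < 2 / c ^ 2 := by positivity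
  have h64 : (64 : ℝ) ≤ 64 ^ t := by
    calc (64 : ℝ) = 64 ^ 1 := (pow_one _).symm
      _ ≤ 64 ^ t := pow_le_pow_right₀ (by norm_num) (by omega)
  have hH : ((128 ^ t : ℕ) : ℝ) = 64 ^ t * 2 ^ t := pow128 t
  have h2p : (0 : ℝ) < 2 ^ t := by positivity
  have hbig : 64 * (2 : ℝ) ^ t ≤ 64 ^ t * 2 ^ t := mul_le_mul_of_nonneg_right h64 h2p.le
  have htt : (t : ℝ) ≤ 2 ^ t := by exact_mod_cast (Nat.lt_two_pow_self (n := t)).le
  have e3 : 3 ≤ c * 2 ^ t := by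
    have : 3 / c ≤ 2 ^ t := by linarith
    rw [div_le_iff₀ hc] at this
    linarith
  have e2 : 2 ≤ c ^ 2 * 2 ^ t := by
    have : 2 / c ^ 2 ≤ 2 ^ t := by linarith
    rw [div_le_iff₀ (by positivity)] at this
    linarith
  have hc2H : 2 ≤ c ^ 2 * ((128 ^ t : ℕ) : ℝ) := by
    rw [hH]
    have := mul_le_mul_of_nonneg_left (show (2 : ℝ) ^ t ≤ 64 ^ t * 2 ^ t by linarith) (sq_nonneg c)
    linarith
  refine ⟨hc, ?_, ?_, ?_, ?_, ?_, hcD, ?_, hc2H, ?_⟩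
  · rw [hH]; linarith
  · rw [hH]; linarith
  · rw [hH]; linarith
  · rw [hH, CD]
    have := mul_le_mul_of_nonneg_left (show (1 : ℝ) ≤ 2 ^ t by linarith)
      (show (0 : ℝ) ≤ 64 ^ t by positivity)
    linarith
  · rw [hH]; linarith
  · rw [hH]
    have h26 : (2 : ℝ) ^ t ≤ 64 ^ t := pow_le_pow_left₀ (by norm_num) (by norm_num) t
    have a1 : 3 ≤ c * 64 ^ t := e3.trans (mul_le_mul_of_nonneg_left h26 hc.le)
    have a2 := mul_le_mul_of_nonneg_right a1 h2p.le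
    linarith
  · have hH1000 : (1000 : ℝ) ≤ ((128 ^ t : ℕ) : ℝ) := by rw [hH]; linarith
    have ht4 : 4 * (t : ℝ) ≤ ((128 ^ t : ℕ) : ℝ) := by rw [hH]; linarith
    generalize ((128 ^ t : ℕ) : ℝ) = H at *
    have hH0 : 0 < H := by linarith
    have h5 : Real.exp (-(c ^ 2 * H ^ 5 / 8)) ≤ Real.exp (-(H ^ 2 / 2)) := by
      apply Real.exp_le_exp.2
      have a1 : 2 * H ^ 4 ≤ (c ^ 2 * H) * H ^ 4 :=
        mul_le_mul_of_nonneg_right hc2H (by positivity)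
      have a2 : (c ^ 2 * H) * H ^ 4 = c ^ 2 * H ^ 5 := by ring
      have a4 : 2 ≤ H ^ 2 := by nlinarith only [hH1000]
      have a3 : 2 * H ^ 2 ≤ H ^ 4 := by
        calc 2 * H ^ 2 ≤ H ^ 2 * H ^ 2 := mul_le_mul_of_nonneg_right a4 (by positivity)
          _ = H ^ 4 := by ring
      linarith
    refine le_trans ?_ (tail_le (K := 12) (by linarith) ht4 (by linarith))
    linarith

theorem rpow800 (H : ℕ) (s : ℝ) (n : ℤ) (h : 800 * s = n) :
    ((H ^ 800 : ℕ) : ℝ) ^ s = (H : ℝ) ^ n := by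
  rw [Nat.cast_pow, ← Real.rpow_natCast, ← Real.rpow_mul (Nat.cast_nonneg H)]
  rw [show ((800 : ℕ) : ℝ) * s = (n : ℝ) by rw [← h]; norm_num, Real.rpow_intCast]

/-- The base case. -/
theorem baseH {q : ℝ} (hq : 0 < q) (hq1 : q < 1) :
    ∃ (c : ℝ) (D t0 : ℕ), c ≤ 1 / 2 ∧ (∀ t : ℕ, t0 ≤ t → Bigq c D t (128 ^ t)) ∧
      ∀ t : ℕ, t0 ≤ t → GdH q (128 ^ t) 3234 3373 (t - 3234) := by
  obtain ⟨C, hC, hclose⟩ := base_close hq hq1
  obtain ⟨C0, c0, hc0, hhid⟩ := base_hid hq hq1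
  set c : ℝ := min c0 (1 / 2) with hc
  have hcp : 0 < c := lt_min hc0 (by norm_num)
  obtain ⟨D, t0, hbig⟩ := bigq_exists hcp
  obtain ⟨t1, ht1⟩ := exists_nat_gt (2 * C + C0 + 5000)
  refine ⟨c, D, t0 + t1, min_le_right _ _, fun t ht => hbig t (by omega), fun t ht => ?_⟩
  have hb := hbig t (by omega)
  have hH1 := hb.H1
  have hH0 := hb.H0
  have hH1000 := hb.h0
  have hC00 : (0 : ℝ) ≤ C0 := Nat.cast_nonneg C0
  have htH : (t : ℝ) ≤ 2 ^ t := by exact_mod_cast (Nat.lt_two_pow_self (n := t)).le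
  have ht1' : (t1 : ℝ) ≤ t := by exact_mod_cast (by omega : t1 ≤ t)
  have ht4 : 4 * (t : ℝ) ≤ ((128 ^ t : ℕ) : ℝ) := by
    have := hb.h2
    linarith
  have hCH : 2 * C ≤ ((128 ^ t : ℕ) : ℝ) := by linarith
  have hC0H : C0 ≤ 128 ^ t := by
    have : (C0 : ℝ) ≤ ((128 ^ t : ℕ) : ℝ) := by linarith
    exact_mod_cast this
  have ht5000 : 5000 ≤ t := by
    have : (5000 : ℝ) ≤ t := by linarith
    exact_mod_cast this
  generalize 128 ^ t = H at *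
  have hC0 : 0 < C := by linarith
  have hh1 : 1 ≤ H ^ 800 := Nat.one_le_pow _ _ hb.n1
  have hl : C * (H : ℝ) ≤ ((H ^ 800 : ℕ) : ℝ) ^ (1 / 4 : ℝ) := by
    rw [rpow800 H (1 / 4) 200 (by norm_num)]
    calc C * (H : ℝ) ≤ (H : ℝ) * H := mul_le_mul_of_nonneg_right (by linarith) hb.H0'
      _ = (H : ℝ) ^ (2 : ℤ) := by rw [zpow_ofNat]; ring
      _ ≤ _ := zpow_le_zpow_right₀ hH1 (by norm_num)
  obtain ⟨s1, s2⟩ := hclose (H ^ 800) H hh1 hH1 hl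
  have hP := (dl_prob hq.le hq1.le (win (H ^ 800) (H ^ 800))).1
  have size : ∀ (s : ℝ) (n m : ℤ), 800 * s = n → n + 2 ≤ m →
      C * (H : ℝ) * ((H ^ 800 : ℕ) : ℝ) ^ s ≤ (H : ℝ) ^ m := by
    intro s n m hs hm
    rw [rpow800 H s n hs]
    have a1 : C * (H : ℝ) ≤ (H : ℝ) ^ (2 : ℤ) := by
      calc C * (H : ℝ) ≤ (H : ℝ) * H := mul_le_mul_of_nonneg_right (by linarith) hb.H0'
        _ = (H : ℝ) ^ (2 : ℤ) := by rw [zpow_ofNat]; ring
    calc C * (H : ℝ) * (H : ℝ) ^ n ≤ (H : ℝ) ^ (2 : ℤ) * (H : ℝ) ^ n :=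
          mul_le_mul_of_nonneg_right a1 (zpow_nonneg hb.H0' n)
      _ = (H : ℝ) ^ (2 + n) := (zpow_add₀ hH0.ne' 2 n).symm
      _ ≤ _ := zpow_le_zpow_right₀ hH1 (by omega)
  have tail : C * (Real.exp (-((H : ℝ) ^ 2 / 2)) + Real.exp (-(((H ^ 800 : ℕ) : ℝ) / C)))
      ≤ (H : ℝ) ^ (-(t : ℤ)) := by
    have h5 : Real.exp (-(((H ^ 800 : ℕ) : ℝ) / C)) ≤ Real.exp (-((H : ℝ) ^ 2 / 2)) := by
      apply Real.exp_le_exp.2
      have a1 : (H : ℝ) ^ 2 * C ≤ ((H ^ 800 : ℕ) : ℝ) := by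
        calc (H : ℝ) ^ 2 * C ≤ (H : ℝ) ^ 2 * H :=
              mul_le_mul_of_nonneg_left (by linarith) (by positivity)
          _ = (H : ℝ) ^ 3 := by ring
          _ ≤ (H : ℝ) ^ 800 := pow_le_pow_right₀ hH1 (by norm_num)
          _ = _ := by rw [Nat.cast_pow]
      have a2 : (H : ℝ) ^ 2 ≤ ((H ^ 800 : ℕ) : ℝ) / C := by rw [le_div_iff₀ hC0]; exact a1
      have a3 : (0 : ℝ) ≤ (H : ℝ) ^ 2 := by positivity
      linarith
    refine le_trans ?_ (tail_le (K := 2 * C) (by linarith) ht4 hCH)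
    have := mul_le_mul_of_nonneg_left h5 hC0.le
    linarith
  have hdat : DatH q H 801 c 598 998 t (win (H ^ 800) (H ^ 800))
      (win (H ^ 800 + 1) (H ^ 800 - 1)) (win (H ^ 800 - 1) (H ^ 800 + 1)) := by
    obtain ⟨m, hm, hh⟩ := hhid (H ^ 800) hh1
    refine ⟨?_, ?_, ?_, win_ne (by omega), ?_, s1.mono hP (size _ (-600) _ (by norm_num) (by
      norm_num)) tail, s2.mono hP (size _ (-1000) _ (by norm_num) (by norm_num)) tail⟩
    · rw [win_length, win_length]; omega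
    · rw [win_length, win_length]; omega
    · rw [win_length, pow_succ H 800]
      have h1000 : 1000 ≤ H := by exact_mod_cast hH1000
      have := Nat.mul_le_mul (le_refl (H ^ 800)) h1000
      omega
    · have h801 : m ≤ H ^ 801 := by
        rw [pow_succ H 800, mul_comm]
        exact hm.trans (Nat.mul_le_mul hC0H le_rfl)
      exact (hh.mono_m (dl_prob hq.le hq1.le _) h801).mono_c hcp (min_le_left _ _)
  have he : Expq t 801 198 598 998 t 998 := by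
    refine ⟨le_rfl, ?_, ?_, ?_, ?_, ?_, ?_, ?_, ?_, ?_, ?_, ?_, le_rfl⟩ <;> omega
  obtain ⟨x, y, b1, b2, b3, b4, b5⟩ := hb.roundH hq hq1 he hdat
  refine ⟨x, y, b1, b2, b3, b4, b5.mono (dl_prob hq.le hq1.le x).1 (le_of_eq ?_) ?_⟩
  · norm_num
  · exact zpow_le_zpow_right₀ hH1 (by push_cast; omega)

end Vale.Agent.P321.SP
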