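import Vale.Agent.Lib.P321.SQ.Round3
import Vale.Agent.Lib.P321.SP.Param

/-!
P321, quantitative superpolynomial lower bound: bookkeeping of powers of a large number `H`.
-/

namespace Vale.Agent.P321.SP

open Finset

/-- `0 ≤ x ≤ H ^ n`. -/
def Lq (H x : ℝ) (n : ℤ) : Prop := 0 ≤ x ∧ x ≤ H ^ n

theorem Lq.mono {H x : ℝ} {n m : ℤ} (hH : 1 ≤ H) (h : Lq H x n) (hnm : n ≤ m) : Lq H x m :=
  ⟨h.1, h.2.trans (zpow_le_zpow_right₀ hH hnm)⟩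

theorem Lq.mul {H x y : ℝ} {n m : ℤ} (hH : 1 ≤ H) (h : Lq H x n) (h' : Lq H y m) :
    Lq H (x * y) (n + m) := by
  refine ⟨mul_nonneg h.1 h'.1, ?_⟩
  rw [zpow_add₀ (by linarith)]
  exact mul_le_mul h.2 h'.2 h'.1 (zpow_nonneg (by linarith) _)

theorem Lq.add {H x y : ℝ} {n : ℤ} (hH : 2 ≤ H) (h : Lq H x n) (h' : Lq H y n) :
    Lq H (x + y) (n + 1) := by
  refine ⟨add_nonneg h.1 h'.1, ?_⟩
  rw [zpow_add₀ (by linarith), zpow_one]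
  have := zpow_nonneg (show 0 ≤ H by linarith) n
  have h1 := h.2
  have h2 := h'.2
  nlinarith only [this, h1, h2, hH]

theorem Lq.pow {H x : ℝ} {n : ℤ} (h : Lq H x n) (k : ℕ) :
    Lq H (x ^ k) (n * k) := by
  refine ⟨pow_nonneg h.1 k, ?_⟩
  rw [zpow_mul, zpow_natCast]
  exact pow_le_pow_left₀ h.1 h.2 k

theorem Lq.sq {H x : ℝ} {n : ℤ} (h : Lq H x n) : Lq H (x ^ 2) (2 * n) := by
  have := h.pow 2
  rwa [mul_comm] at this

theorem Lq.const {H a : ℝ} (ha : 0 ≤ a) (h : a ≤ H) : Lq H a 1 := ⟨ha, by rwa [zpow_one]⟩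

theorem Lq.one {H : ℝ} : Lq H 1 0 := ⟨zero_le_one, by rw [zpow_zero]⟩

theorem Lq.npow {H : ℝ} (hH : 0 ≤ H) (k : ℕ) : Lq H (H ^ k) k :=
  ⟨pow_nonneg hH k, by rw [zpow_natCast]⟩

theorem Lq.zpow {H : ℝ} (hH : 0 ≤ H) (n : ℤ) : Lq H (H ^ n) n := ⟨zpow_nonneg hH n, le_rfl⟩

theorem Lq.le {H x : ℝ} {n : ℤ} (h : Lq H x n) : x ≤ H ^ n := h.2

/-- A quantity of order `H ^ (-1)` is smaller than a fixed constant. -/
theorem Lq.small {H x a : ℝ} {n : ℤ} (hH : 1 ≤ H) (h : Lq H x n) (hn : n ≤ -1)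
    (ha : 1 ≤ a * H) : x ≤ a := by
  have h1 := (h.mono hH hn).2
  have hH0 : 0 < H := by linarith
  rw [zpow_neg_one] at h1
  refine h1.trans ?_
  rw [inv_eq_one_div, div_le_iff₀ hH0]
  exact ha

/-- `H` is large compared with the constants. -/
structure Bigq (c : ℝ) (D t H : ℕ) : Prop where
  c0 : 0 < c
  h0 : (1000 : ℝ) ≤ H
  ht : (t : ℝ) ≤ H
  h2 : 6 * (2 : ℝ) ^ t ≤ H
  hCD : CD t ≤ H
  hD : (D : ℝ) ≤ H
  hcD : 81 ≤ c * D
  hc : 3 * (2 : ℝ) ^ t ≤ c * H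
  hc2 : 2 ≤ c ^ 2 * H
  htl : 4 * (2 * Real.exp (-((H : ℝ) ^ 2 / 2)) + Real.exp (-(c ^ 2 * (H : ℝ) ^ 5 / 8)))
    ≤ (H : ℝ) ^ (-(t : ℤ))

namespace Bigq

variable {c : ℝ} {D t H : ℕ} (hb : Bigq c D t H)

include hb

theorem H1 : (1 : ℝ) ≤ H := by have := hb.h0; linarith
theorem H2 : (2 : ℝ) ≤ H := by have := hb.h0; linarith
theorem H0 : (0 : ℝ) < H := by have := hb.h0; linarith
theorem H0' : (0 : ℝ) ≤ H := hb.H0.le

theorem n1 : 1 ≤ H := by exact_mod_cast hb.H1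

theorem lpow (A : ℕ) : Lq H ((H : ℝ) ^ A) A := Lq.npow hb.H0' A

theorem lpow1 (A : ℕ) : Lq H ((H : ℝ) ^ A + 1) (A + 1) := by
  refine Lq.add hb.H2 (hb.lpow A) (Lq.one.mono hb.H1 (by positivity))

end Bigq

/-- The integers of one round. -/
def gH (t H A : ℕ) : ℕ := t * (H ^ 4 * (H ^ A + 1))
def SH (t H A : ℕ) : ℕ := 2 * gH t H A + 2 ^ t
def UH (D t H A : ℕ) : ℕ := D * SH t H A * (H ^ A + 1)
def GH (D t H A : ℕ) : ℕ := t * (H ^ 4 * (UH D t H A + 1))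
def RH (D t H A : ℕ) : ℕ := 2 * GH D t H A + 2 ^ t
def MH (D t H A : ℕ) : ℕ := 162 * RH D t H A * (UH D t H A + 1)

namespace Bigq

variable {c : ℝ} {D t H : ℕ} (hb : Bigq c D t H)

include hb

theorem lt1 : Lq H (t : ℝ) 1 := Lq.const (Nat.cast_nonneg _) hb.ht

theorem l2t : Lq H ((2 : ℝ) ^ t) 1 := by
  refine Lq.const (by positivity) ?_
  have h1 := hb.h2
  have h2 : (0 : ℝ) ≤ 2 ^ t := by positivity
  linarith

theorem lCD : Lq H (CD t) 1 :=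
  Lq.const (by have := CD_ge_one t; linarith) hb.hCD

theorem lc {a : ℝ} (h0 : 0 ≤ a) (ha : a ≤ 1000) : Lq H a 1 :=
  Lq.const h0 (ha.trans hb.h0)

theorem lg (A : ℕ) : Lq H (gH t H A : ℝ) (A + 6) := by
  have h := hb.lt1.mul hb.H1 ((hb.lpow 4).mul hb.H1 (hb.lpow1 A))
  have e : ((gH t H A : ℕ) : ℝ) = t * ((H : ℝ) ^ 4 * ((H : ℝ) ^ A + 1)) := by
    unfold gH; push_cast; ring
  rw [e]
  exact h.mono hb.H1 (by push_cast; linarith)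

theorem lS (A : ℕ) : Lq H (SH t H A : ℝ) (A + 8) := by
  have h := Lq.add hb.H2 ((hb.lc (a := 2) (by norm_num) (by norm_num)).mul hb.H1 (hb.lg A))
    (hb.l2t.mono hb.H1 (show (1 : ℤ) ≤ 1 + (A + 6) by omega))
  have e : ((SH t H A : ℕ) : ℝ) = 2 * (gH t H A : ℝ) + 2 ^ t := by
    unfold SH; push_cast; ring
  rw [e]
  exact h.mono hb.H1 (by omega)

theorem lU (A : ℕ) : Lq H (UH D t H A : ℝ) (2 * A + 10) := by
  have h := ((Lq.const (Nat.cast_nonneg D) hb.hD).mul hb.H1 (hb.lS A)).mul hb.H1 (hb.lpow1 A)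
  have e : ((UH D t H A : ℕ) : ℝ) = D * (SH t H A : ℝ) * ((H : ℝ) ^ A + 1) := by
    unfold UH; push_cast; ring
  rw [e]
  exact h.mono hb.H1 (by omega)

theorem lU1 (A : ℕ) : Lq H ((UH D t H A : ℝ) + 1) (2 * A + 11) :=
  (Lq.add hb.H2 (hb.lU A) (Lq.one.mono hb.H1 (by omega))).mono hb.H1 (by omega)

theorem lG (A : ℕ) : Lq H (GH D t H A : ℝ) (2 * A + 16) := by
  have h := hb.lt1.mul hb.H1 ((hb.lpow 4).mul hb.H1 (hb.lU1 A))
  have e : ((GH D t H A : ℕ) : ℝ) = t * ((H : ℝ) ^ 4 * ((UH D t H A : ℝ) + 1)) := by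
    unfold GH; push_cast; ring
  rw [e]
  exact h.mono hb.H1 (by push_cast; omega)

theorem lR (A : ℕ) : Lq H (RH D t H A : ℝ) (2 * A + 18) := by
  have h := Lq.add hb.H2 ((hb.lc (a := 2) (by norm_num) (by norm_num)).mul hb.H1 (hb.lG A))
    (hb.l2t.mono hb.H1 (show (1 : ℤ) ≤ 1 + (2 * A + 16) by omega))
  have e : ((RH D t H A : ℕ) : ℝ) = 2 * (GH D t H A : ℝ) + 2 ^ t := by
    unfold RH; push_cast; ring
  rw [e]
  exact h.mono hb.H1 (by omega)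

theorem lM (A : ℕ) : Lq H (MH D t H A : ℝ) (4 * A + 30) := by
  have h := ((hb.lc (a := 162) (by norm_num) (by norm_num)).mul hb.H1 (hb.lR A)).mul hb.H1
    (hb.lU1 A)
  have e : ((MH D t H A : ℕ) : ℝ) = 162 * (RH D t H A : ℝ) * ((UH D t H A : ℝ) + 1) := by
    unfold MH; push_cast; ring
  rw [e]
  exact h.mono hb.H1 (by omega)

theorem lM1 (A : ℕ) : Lq H ((MH D t H A : ℝ) + 1) (4 * A + 31) :=
  (Lq.add hb.H2 (hb.lM A) (Lq.one.mono hb.H1 (by omega))).mono hb.H1 (by omega)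

end Bigq

end Vale.Agent.P321.SP
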