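import Vale.Agent.Lib.P321.SP.Dbl

/-!
P321, quantitative superpolynomial lower bound: the Thue-Morse doubling recursion with constants
growing only exponentially in the number of doublings.
-/

namespace Vale.Agent.P321.SP

open Finset

/-- Constants of the doubling recursion. -/
noncomputable def CD (t : ℕ) : ℝ := 64 ^ t

theorem CD_ge_one (t : ℕ) : 1 ≤ CD t := one_le_pow₀ (by norm_num)

section

variable {G : Type} [Monoid G]

theorem dbl2 {P : Al G} (hP : Prob P) {L : ℕ} {Z O E : Al G} {x0 o e : ℝ} (hZ : Near P L x0 Z)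
    (hO : Mono P L o O) (hE : Mono P L e E) (T : ℕ)
    (hx : (1 + x0) ^ (2 ^ T) ≤ 2) (hu1 : CD T * (e + o ^ 2) ≤ 1) (t : ℕ) (ht : t ≤ T) :
    ∃ ev od : Al G,
      tm t (Z + E + O) (Z + E - O) = Z ^ (2 ^ t) + ev + (LO Z O t + od) ∧
      tm t (Z + E - O) (Z + E + O) = Z ^ (2 ^ t) + ev - (LO Z O t + od) ∧
      Mono P (L * 2 ^ t) (16 ^ t * (e + o ^ 2)) ev ∧
      Mono P (L * 2 ^ t) (64 ^ t * (o * (e + o ^ 2))) od ∧
      Mono P (L * 2 ^ t) (4 ^ t * o) (LO Z O t) := by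
  have hx0 : 0 ≤ x0 := hZ.1
  have ho : 0 ≤ o := hO.1
  have he : 0 ≤ e := hE.1
  induction t with
  | zero =>
    refine ⟨E, 0, by simp [tm, LO], by simp [tm, LO], ?_, ?_, ?_⟩
    · simp only [pow_zero, mul_one, one_mul]
      exact hE.mono (by nlinarith)
    · simp only [pow_zero, mul_one, one_mul]
      exact (Mono.zero hP L).mono (by positivity)
    · simpa [LO] using hO
  | succ t ih =>
    obtain ⟨ev, od, h1, h2, h3, h4, h5⟩ := ih (by omega)
    set u := e + o ^ 2 with hu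
    have hu0 : 0 ≤ u := by positivity
    have hcu : (64 : ℝ) ^ t * u ≤ 1 :=
      (mul_le_mul_of_nonneg_right (pow_le_pow_right₀ (by norm_num) (by omega)) hu0).trans hu1
    have hbu : (16 : ℝ) ^ t * u ≤ 1 :=
      (mul_le_mul_of_nonneg_right (pow_le_pow_left₀ (by norm_num) (by norm_num) t) hu0).trans hcu
    have hz1 : (1 + x0) ^ (2 ^ t) ≤ 2 :=
      (pow_le_pow_right₀ (by linarith) (Nat.pow_le_pow_right (by norm_num) (by omega))).trans hx
    have hZp : Near P (L * 2 ^ t) ((1 + x0) ^ (2 ^ t) - 1) (Z ^ (2 ^ t)) := hZ.pow hP _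
    have hZp' : Near P (L * 2 ^ t) 1 (Z ^ (2 ^ t)) := Mono.mono hZp (by linarith)
    have eL : L * 2 ^ t + L * 2 ^ t = L * 2 ^ (t + 1) := by rw [pow_succ]; ring
    -- left and right multiplications by `Z ^ (2 ^ t)`
    have left : ∀ {F : Al G} {θ : ℝ}, Mono P (L * 2 ^ t) θ F →
        Mono P (L * 2 ^ (t + 1)) (2 * θ) (Z ^ (2 ^ t) * F) := fun hF => by
      have := (hZp'.mul_mono hP hF).cast eL
      convert this using 1; ring
    have right : ∀ {F : Al G} {θ : ℝ}, Mono P (L * 2 ^ t) θ F →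
        Mono P (L * 2 ^ (t + 1)) (2 * θ) (F * Z ^ (2 ^ t)) := fun hF => by
      have := (hF.mul_bdd hZp'.bdd).cast eL
      convert this using 1; ring
    have h46 : (64 : ℝ) ^ t = 4 ^ t * 16 ^ t := by rw [← mul_pow]; norm_num
    have h44 : (16 : ℝ) ^ t = 4 ^ t * 4 ^ t := by rw [← mul_pow]; norm_num
    have h4p : (1 : ℝ) ≤ 4 ^ t := one_le_pow₀ (by norm_num)
    have hlo : Mono P (L * 2 ^ t) (2 * 4 ^ t * o) (LO Z O t + od) := by
      refine (h5.add hP h4).mono ?_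
      have a1 : (64 : ℝ) ^ t * (o * u) = o * (64 ^ t * u) := by ring
      have a2 : o * ((64 : ℝ) ^ t * u) ≤ o * 1 := mul_le_mul_of_nonneg_left hcu ho
      have a3 : 1 * o ≤ 4 ^ t * o := mul_le_mul_of_nonneg_right h4p ho
      rw [a1]; linarith
    refine ⟨Z ^ (2 ^ t) * ev + ev * Z ^ (2 ^ t) + (ev * ev - (LO Z O t + od) * (LO Z O t + od)),
      od * Z ^ (2 ^ t) - Z ^ (2 ^ t) * od + ((LO Z O t + od) * ev - ev * (LO Z O t + od)),
      ?_, ?_, ?_, ?_, ?_⟩
    · simp only [tm, h1, h2, LO]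
      rw [show Z ^ 2 ^ (t + 1) = Z ^ (2 ^ t) * Z ^ (2 ^ t) by rw [← pow_add]; congr 1; ring]
      noncomm_ring
    · simp only [tm, h1, h2, LO]
      rw [show Z ^ 2 ^ (t + 1) = Z ^ (2 ^ t) * Z ^ (2 ^ t) by rw [← pow_add]; congr 1; ring]
      noncomm_ring
    · have m1 := (left h3).add hP (right h3)
      have m2 := ((h3.mul_bdd h3.bdd).cast eL).sub hP ((hlo.mul_bdd hlo.bdd).cast eL)
      refine (m1.add hP m2).mono ?_
      have a1 : (16 : ℝ) ^ t * u * (16 ^ t * u) ≤ 16 ^ t * u * 1 :=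
        mul_le_mul_of_nonneg_left hbu (by positivity)
      have a2 : o ^ 2 ≤ u := by rw [hu]; linarith
      have a4 : 2 * 4 ^ t * o * (2 * 4 ^ t * o) = 4 * (16 ^ t * o ^ 2) := by rw [h44]; ring
      have a5 : (16 : ℝ) ^ t * o ^ 2 ≤ 16 ^ t * u :=
        mul_le_mul_of_nonneg_left a2 (by positivity)
      have a6 : 0 ≤ (16 : ℝ) ^ t * u := by positivity
      rw [a4, pow_succ (16 : ℝ) t]
      nlinarith only [a1, a5, a6]
    · have m1 := (right h4).sub hP (left h4)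
      have m2 := ((hlo.mul_bdd h3.bdd).cast eL).sub hP ((h3.mul_bdd hlo.bdd).cast eL)
      refine (m1.add hP m2).mono ?_
      have a1 : 0 ≤ (4 : ℝ) ^ t * 16 ^ t * (o * u) := by positivity
      rw [pow_succ (64 : ℝ) t, h46]
      nlinarith only [a1]
    · have m1 := (right h5).sub hP (left h5)
      refine m1.mono ?_
      rw [pow_succ (4 : ℝ) t]
      have a1 : 0 ≤ (4 : ℝ) ^ t * o := by positivity
      nlinarith only [a1]

/-- The same with uniform constants. -/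
theorem dbl3 {P : Al G} (hP : Prob P) {L : ℕ} {Z O E : Al G} {x0 o e : ℝ} (hZ : Near P L x0 Z)
    (hO : Mono P L o O) (hE : Mono P L e E) (t : ℕ)
    (hx : (1 + x0) ^ (2 ^ t) ≤ 2) (hu1 : CD t * (e + o ^ 2) ≤ 1) :
    ∃ ev od : Al G,
      tm t (Z + E + O) (Z + E - O) = Z ^ (2 ^ t) + ev + (LO Z O t + od) ∧
      tm t (Z + E - O) (Z + E + O) = Z ^ (2 ^ t) + ev - (LO Z O t + od) ∧
      Mono P (L * 2 ^ t) (CD t * (e + o ^ 2)) ev ∧
      Mono P (L * 2 ^ t) (CD t * (o * (e + o ^ 2))) od := by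
  obtain ⟨ev, od, h1, h2, h3, h4, -⟩ := dbl2 hP hZ hO hE t hx hu1 t le_rfl
  have ho : 0 ≤ o := hO.1
  have he : 0 ≤ e := hE.1
  refine ⟨ev, od, h1, h2, h3.mono ?_, h4⟩
  apply mul_le_mul_of_nonneg_right _ (by positivity)
  exact pow_le_pow_left₀ (by norm_num) (by norm_num) t

end

end Vale.Agent.P321.SP
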