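import Vale.Agent.Lib.P321.SQ.BaseH
import Vale.Agent.Lib.P321.SP.Recon
import Vale.Agent.Lib.P321.Finite

/-!
P321, quantitative superpolynomial lower bound: conclusion.
-/

namespace Vale.Agent.P321.SP

open Finset Filter

theorem As_mono {r s : ℕ} (h : r ≤ s) : As r ≤ As s := by
  induction s, h using Nat.le_induction with
  | base => exact le_rfl
  | succ s _ ih => simp only [As]; omega

theorem GdH.iter {q : ℝ} (hq : 0 < q) (hq1 : q < 1) {c : ℝ} {D t H : ℕ} (hb : Bigq c D t H)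
    (hc : c ≤ 1 / 2) (h0 : GdH q H 3234 3373 (t - 3234)) (R : ℕ)
    (ht : (2 * R + 8) * As R + 12 ≤ t) :
    ∀ r ≤ R, GdH q H (As r) (ks r) (t - As r) := by
  intro r
  induction r with
  | zero => intro _; exact h0
  | succ r ih =>
    intro hr
    have h1 := ih (by omega)
    have hA := As_lin r
    have hAm := As_mono (show r ≤ R by omega)
    have h2 : (2 * r + 8) * As r + 12 ≤ t :=
      (Nat.add_le_add_right (Nat.mul_le_mul (by omega) hAm) 12).trans ht
    have hk := ks_upper r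
    have hk' := ks_lower' r
    have hA0 : (0 : ℤ) ≤ As r := by positivity
    have h2' : (2 * (r : ℤ) + 8) * As r + 12 ≤ t := by exact_mod_cast h2
    have h5 : 5 * ((As r / 5 : ℕ) : ℤ) ≤ As r := by omega
    have hA' : (3234 : ℤ) ≤ As r := by omega
    have hrA : 0 ≤ (r : ℤ) * As r := by positivity
    have h3 := h1.step hq hq1 hb hc (by omega) hk' (by nlinarith only [h2', hk, h5, hA'])
      (by nlinarith only [h2', hA', hrA]) (by omega)
    refine h3.mono hq hq1 hb.H1 ?_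
    simp only [As]
    push_cast
    omega

/-- The lower bound at the scales `H ^ As R`. -/
theorem lower_scale {q : ℝ} (hq : 0 < q) (hq1 : q < 1) {c : ℝ} {D t H : ℕ} (hb : Bigq c D t H)
    (hc : c ≤ 1 / 2) (h0 : GdH q H 3234 3373 (t - 3234)) (R : ℕ)
    (ht : (2 * R + 8) * As R + 12 ≤ t) {n : ℕ} (hn : H ^ As R ≤ n) :
    (H : ℝ) ^ (2 * ks R) ≤ 72 * (sampleComplexity q n : ℝ) := by
  obtain ⟨x, y, a1, a2, a3, -, a5⟩ := GdH.iter hq hq1 hb hc h0 R ht R le_rfl
  have hmem : Reconstructs q n (sampleComplexity q n) :=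
    Nat.sInf_mem (s := {m | Reconstructs q n m}) (reconstructs_exists hq.le hq1 n)
  have hη : (0 : ℝ) ≤ (H : ℝ) ^ (-(ks R)) := zpow_nonneg hb.H0' _
  have h3 := recon_lower hq hq1 a1 a2.symm (a3.trans hn) hη a5 hmem
  have hA0 : (3234 : ℤ) ≤ As R := by have := As_lin R; omega
  have hk := ks_upper R
  have h2' : (2 * (R : ℤ) + 8) * As R + 12 ≤ t := by exact_mod_cast ht
  have h4 : (H : ℝ) ^ (-((t : ℤ) - As R)) ≤ (H : ℝ) ^ (-(2 * ks R)) :=
    zpow_le_zpow_right₀ hb.H1 (by nlinarith only [h2', hk, hA0])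
  have h5 : ((H : ℝ) ^ (-(ks R))) ^ 2 = (H : ℝ) ^ (-(2 * ks R)) := by
    rw [← zpow_natCast, ← zpow_mul]
    congr 1
    push_cast; ring
  rw [h5] at h3
  have hT : (0 : ℝ) ≤ (sampleComplexity q n : ℝ) := Nat.cast_nonneg _
  have hX : 0 < (H : ℝ) ^ (2 * ks R) := zpow_pos hb.H0 _
  have h6 : 1 / 18 ≤ (sampleComplexity q n : ℝ) * (4 * (H : ℝ) ^ (-(2 * ks R))) := by
    refine h3.trans (mul_le_mul_of_nonneg_left ?_ hT)
    linarith
  rw [zpow_neg] at h6
  have h7 := mul_le_mul_of_nonneg_right h6 hX.le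
  have h8 : (sampleComplexity q n : ℝ) * (4 * ((H : ℝ) ^ (2 * ks R))⁻¹) * (H : ℝ) ^ (2 * ks R)
      = 4 * (sampleComplexity q n : ℝ) := by field_simp
  rw [h8] at h7
  linarith

end Vale.Agent.P321.SP
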