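import Vale.Agent.Lib.P321.SQ.Step2
import Vale.Agent.Lib.P321.SP.Base

/-!
P321, quantitative superpolynomial lower bound: the iteration.
-/

namespace Vale.Agent.P321.SP

open Finset

/-- Two words at scale `H ^ A` with close trace laws. -/
def GdH (q : ℝ) (H A : ℕ) (κ τ : ℤ) : Prop :=
  ∃ x y : Bw, x ≠ y ∧ y.length = x.length ∧ x.length ≤ H ^ A ∧
    Hid (dl q x) (H ^ A) (1 / 2) ∧
    Small (dl q y - dl q x) (dl q x) ((H : ℝ) ^ (-κ)) ((H : ℝ) ^ (-τ))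

theorem Hid.mono_c {G : Type} [Monoid G] {P : Al G} {m : ℕ} {c c' : ℝ}
    (h : Hid P m c) (hc : 0 < c') (hcc : c' ≤ c) : Hid P m c' := by
  obtain ⟨ν, h1, h2, h3, h4⟩ := h
  exact Hid.of_ge hc h1 h2 h3 (by rw [h4]; exact hcc)

theorem GdH.mono {q : ℝ} (hq : 0 < q) (hq1 : q < 1) {H A : ℕ} {κ τ τ' : ℤ} (hH : (1 : ℝ) ≤ H)
    (h : GdH q H A κ τ) (hτ : τ' ≤ τ) : GdH q H A κ τ' := by
  obtain ⟨x, y, a1, a2, a3, a4, a5⟩ := h
  exact ⟨x, y, a1, a2, a3, a4, a5.mono (dl_prob hq.le hq1.le x).1 le_rfl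
    (zpow_le_zpow_right₀ hH (by omega))⟩

theorem GdH.step {q : ℝ} (hq : 0 < q) (hq1 : q < 1) {c : ℝ} {D t H : ℕ} (hb : Bigq c D t H)
    (hc : c ≤ 1 / 2) {A : ℕ} {κ τ : ℤ} (hA : 5 ≤ A) (hκ : (A : ℤ) + 14 ≤ κ)
    (h1 : 2 * (A : ℤ) + 12 + 2 * κ + (A / 5 : ℕ) ≤ τ) (h2 : 6 * (A : ℤ) + 56 ≤ τ) (h3 : τ ≤ t)
    (h : GdH q H A κ τ) : GdH q H (4 * A + 30) (4 * κ + (A / 5 : ℕ) - 17) (τ - 2 * A - 23) := by
  obtain ⟨x, y, a1, a2, a3, a4, a5⟩ := h
  have hpos : ∀ n : ℤ, (0 : ℝ) < (H : ℝ) ^ n := fun n => zpow_pos hb.H0 n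
  have pX := dl_prob hq.le hq1.le x
  have s1 : Small ((1 / 2 : ℝ) • (dl q y - dl q x)) (dl q x) ((H : ℝ) ^ (-κ))
      ((H : ℝ) ^ (-τ)) := by
    refine (a5.smul (1 / 2)).mono pX.1 ?_ ?_
    · rw [abs_of_pos (by norm_num : (0 : ℝ) < 1 / 2)]
      have := hpos (-κ)
      linarith
    · rw [abs_of_pos (by norm_num : (0 : ℝ) < 1 / 2)]
      have := hpos (-τ)
      linarith
  have hdat : DatH q H A c κ κ τ x y x := by
    refine ⟨a2, rfl, a3, a1.symm, a4.mono_c hb.c0 hc, s1, ?_⟩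
    have e : (1 / 2 : ℝ) • (dl q y + dl q x) - dl q x = (1 / 2 : ℝ) • (dl q y - dl q x) := by
      module
    rw [e]; exact s1
  have he : Expq t A (A / 5) κ κ τ κ := by
    refine ⟨le_rfl, ?_, ?_, ?_, ?_, ?_, ?_, ?_, ?_, ?_, ?_, ?_, h3⟩ <;> omega
  obtain ⟨x', y', b1, b2, b3, b4, b5⟩ := hb.roundH hq hq1 he hdat
  have e1 : 17 - 2 * (κ + κ) - ((A / 5 : ℕ) : ℤ) = -(4 * κ + (A / 5 : ℕ) - 17) := by ring
  have e2 : 2 * (A : ℤ) + 23 - τ = -(τ - 2 * A - 23) := by ring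
  rw [e1, e2] at b5
  exact ⟨x', y', b1, b2, b3, b4, b5⟩

/-- The scale exponents. -/
def As : ℕ → ℕ
  | 0 => 3234
  | r + 1 => 4 * As r + 30

/-- The closeness exponents. -/
def ks : ℕ → ℤ
  | 0 => 3373
  | r + 1 => 4 * ks r + (As r / 5 : ℕ) - 17

theorem As_lower (r : ℕ) : 3234 * 4 ^ r ≤ As r := by
  induction r with
  | zero => simp [As]
  | succ r ih => simp only [As, pow_succ]; omega

theorem As_upper (r : ℕ) : As r + 10 = 3244 * 4 ^ r := by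
  induction r with
  | zero => simp [As]
  | succ r ih => simp only [As, pow_succ]; omega

theorem As_lin (r : ℕ) : 3234 + 30 * r ≤ As r := by
  induction r with
  | zero => simp [As]
  | succ r ih => simp only [As]; omega

theorem ks_lower (r : ℕ) : (40 + r) * (As r : ℤ) ≤ 40 * ks r := by
  induction r with
  | zero => simp [As, ks]
  | succ r ih =>
    have h1 := As_lin r
    have h2 : (As r : ℤ) - 4 ≤ 5 * ((As r / 5 : ℕ) : ℤ) := by omega
    simp only [As, ks]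
    push_cast at ih h2 ⊢
    nlinarith only [ih, h1, h2]

theorem ks_lower' (r : ℕ) : (As r : ℤ) + 14 ≤ ks r := by
  induction r with
  | zero => simp [As, ks]
  | succ r ih =>
    have h1 := As_lin r
    simp only [As, ks]
    omega

theorem ks_upper (r : ℕ) : ks r ≤ (r + 2) * (As r : ℤ) := by
  induction r with
  | zero => simp [As, ks]
  | succ r ih =>
    simp only [As, ks]
    have h2 : 5 * ((As r / 5 : ℕ) : ℤ) ≤ As r := by omega
    push_cast at ih h2 ⊢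
    nlinarith only [ih, h2]

end Vale.Agent.P321.SP
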