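import Vale.Agent.Lib.P321.SQ.FinalH

/-!
P321: the sample complexity of trace reconstruction is at least `n ^ (log log n / 100)`.
-/

namespace Vale.Agent.P321.SP

open Finset Filter

/-- Choice of the number of rounds. -/
theorem choice (t0 : ℕ) : ∀ᶠ z : ℝ in atTop, 1 ≤ z ∧
    5 * (As ⌊z / 3⌋₊ : ℝ) * ((2 * (⌊z / 3⌋₊ : ℝ) + 8) * As ⌊z / 3⌋₊ + 13 + t0)
      ≤ 2 / 5 * Real.exp z := by
  set K : ℝ := 21 + t0 with hK
  have hK0 : 0 ≤ K := by positivity
  filter_upwards [eventually_ge_atTop (1 : ℝ),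
    eventually_ge_atTop (10 ^ 12 * (1 + K))] with z hz1 hz2
  refine ⟨hz1, ?_⟩
  set R : ℕ := ⌊z / 3⌋₊ with hR
  have hRz : (R : ℝ) ≤ z / 3 := Nat.floor_le (by linarith)
  have hR0 : (0 : ℝ) ≤ R := Nat.cast_nonneg R
  have hA1 : (1 : ℝ) ≤ As R := by
    have := As_lin R
    exact_mod_cast (by omega : 1 ≤ As R)
  have hA2 : (As R : ℝ) ≤ 3244 * 4 ^ R := by
    have h := As_upper R
    have h2 : (As R : ℝ) + 10 = 3244 * 4 ^ R := by exact_mod_cast h
    linarith
  have h16 : (As R : ℝ) ^ 2 ≤ 3244 ^ 2 * Real.exp (93 / 100 * z) := by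
    have h1 : (As R : ℝ) ^ 2 ≤ (3244 * 4 ^ R) ^ 2 := pow_le_pow_left₀ (by linarith) hA2 2
    have h2 : ((3244 : ℝ) * 4 ^ R) ^ 2 = 3244 ^ 2 * 16 ^ R := by
      rw [mul_pow, ← pow_mul, mul_comm R 2, pow_mul]
      norm_num
    have h3 : (16 : ℝ) ^ R ≤ Real.exp (93 / 100 * z) := by
      have e1 : (16 : ℝ) = Real.exp (4 * Real.log 2) := by
        rw [show (4 : ℝ) * Real.log 2 = Real.log (2 ^ 4) by rw [Real.log_pow]; norm_num,
          Real.exp_log (by norm_num)]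
        norm_num
      rw [e1, ← Real.exp_nat_mul]
      apply Real.exp_le_exp.2
      have h4 := Real.log_two_lt_d9
      have h5 : 4 * Real.log 2 ≤ 2.79 := by linarith
      calc (R : ℝ) * (4 * Real.log 2) ≤ R * 2.79 := mul_le_mul_of_nonneg_left h5 hR0
        _ ≤ z / 3 * 2.79 := mul_le_mul_of_nonneg_right hRz (by norm_num)
        _ = 93 / 100 * z := by ring
    rw [h2] at h1
    exact h1.trans (mul_le_mul_of_nonneg_left h3 (by positivity))
  have h7 : (7 / 100 * z) ^ 2 / 2 ≤ Real.exp (7 / 100 * z) := by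
    have := Real.quadratic_le_exp_of_nonneg (show 0 ≤ 7 / 100 * z by linarith)
    have h8 : 0 ≤ 7 / 100 * z := by linarith
    linarith
  have hexp : Real.exp z = Real.exp (93 / 100 * z) * Real.exp (7 / 100 * z) := by
    rw [← Real.exp_add]; congr 1; ring
  have hb : (2 * (R : ℝ) + 8) * As R + 13 + t0 ≤ (z + K) * As R := by
    have : 0 ≤ (13 + (t0 : ℝ)) * (As R - 1) := mul_nonneg (by positivity) (by linarith)
    have h9 : (2 * (R : ℝ)) * As R ≤ z * As R := by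
      apply mul_le_mul_of_nonneg_right _ (by linarith)
      linarith
    rw [hK]; nlinarith only [this, h9]
  have hE : 0 < Real.exp (93 / 100 * z) := Real.exp_pos _
  calc 5 * (As R : ℝ) * ((2 * (R : ℝ) + 8) * As R + 13 + t0)
      ≤ 5 * (As R : ℝ) * ((z + K) * As R) := mul_le_mul_of_nonneg_left hb (by positivity)
    _ = 5 * (z + K) * (As R : ℝ) ^ 2 := by ring
    _ ≤ 5 * (z + K) * (3244 ^ 2 * Real.exp (93 / 100 * z)) :=
        mul_le_mul_of_nonneg_left h16 (by positivity)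
    _ = Real.exp (93 / 100 * z) * (5 * 3244 ^ 2 * (z + K)) := by ring
    _ ≤ Real.exp (93 / 100 * z) * (2 / 5 * Real.exp (7 / 100 * z)) := by
        apply mul_le_mul_of_nonneg_left _ hE.le
        have h10 : z + K ≤ (1 + K) * z := by nlinarith only [hK0, hz1]
        have h11 : 10 ^ 12 * (1 + K) * z ≤ z * z := mul_le_mul_of_nonneg_right hz2 (by linarith)
        nlinarith only [h7, h10, h11, hz1]
    _ = 2 / 5 * Real.exp z := by rw [hexp]; ring

theorem loglog {q : ℝ} (hq : 0 < q) (hq1 : q < 1) :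
    ∀ᶠ n : ℕ in atTop,
      (n : ℝ) ^ (Real.log (Real.log n) / 100) ≤ (sampleComplexity q n : ℝ) := by
  obtain ⟨c, D, t0, hc, hbig, hbase⟩ := baseH hq hq1
  have T1 : Tendsto (fun n : ℕ => Real.log n) atTop atTop :=
    Real.tendsto_log_atTop.comp tendsto_natCast_atTop_atTop
  have T2 : Tendsto (fun n : ℕ => Real.log (Real.log n)) atTop atTop :=
    Real.tendsto_log_atTop.comp T1
  filter_upwards [T2.eventually (choice t0), T1.eventually_ge_atTop 72, eventually_ge_atTop 1]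
    with n ⟨hz1, hch⟩ hy hn1
  have hn0 : (0 : ℝ) < n := by exact_mod_cast hn1
  set y := Real.log (n : ℝ) with hydef
  have hy0 : 0 < y := by linarith
  set z := Real.log y with hzdef
  have hez : Real.exp z = y := Real.exp_log hy0
  rw [hez] at hch
  set R : ℕ := ⌊z / 3⌋₊ with hR
  have hR1 : z / 3 < R + 1 := Nat.lt_floor_add_one _
  have hR0 : (0 : ℝ) ≤ R := Nat.cast_nonneg R
  set A : ℕ := As R with hA
  have hA1 : (1 : ℝ) ≤ A := by
    have := As_lin R
    exact_mod_cast (by omega : 1 ≤ A)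
  set Λ : ℝ := Real.log 128 with hΛ
  have hΛ4 : 4 ≤ Λ := by
    rw [hΛ, show (128 : ℝ) = 2 ^ 7 by norm_num, Real.log_pow]
    have := Real.log_two_gt_d9
    push_cast
    linarith
  have hΛ5 : Λ ≤ 5 := by
    rw [hΛ, show (128 : ℝ) = 2 ^ 7 by norm_num, Real.log_pow]
    have := Real.log_two_lt_d9
    push_cast
    linarith
  have hAΛ : 0 < A * Λ := by positivity
  set t : ℕ := ⌊y / (A * Λ)⌋₊ with ht
  have ht1 : (t : ℝ) ≤ y / (A * Λ) := Nat.floor_le (by positivity)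
  have ht2 : y / (A * Λ) < t + 1 := Nat.lt_floor_add_one _
  rw [le_div_iff₀ hAΛ] at ht1
  rw [div_lt_iff₀ hAΛ] at ht2
  have ht0' : (0 : ℝ) ≤ t0 := Nat.cast_nonneg t0
  set Γ : ℝ := (2 * (R : ℝ) + 8) * A + 13 + t0 with hΓ
  have hΓ13 : 13 ≤ Γ := by rw [hΓ]; nlinarith only [hR0, hA1, ht0']
  have hAL : A * Λ ≤ 5 * A := by nlinarith only [hA1, hΛ5]
  -- `t` is large
  have htΓ : Γ ≤ t + 1 := by
    by_contra h
    rw [not_le] at h
    have h1 : ((t : ℝ) + 1) * (A * Λ) ≤ Γ * (5 * A) :=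
      mul_le_mul h.le hAL hAΛ.le (by linarith)
    nlinarith only [h1, ht2, hch, hy0]
  have htn : (2 * R + 8) * As R + 12 + t0 ≤ t := by
    have : (((2 * R + 8) * As R + 12 + t0 : ℕ) : ℝ) ≤ t := by
      push_cast
      rw [hΓ, hA] at htΓ
      linarith
    exact_mod_cast this
  have hAy : A * Λ ≤ 2 / 5 * y := by nlinarith only [hAL, hch, hΓ13, hA1]
  have hb := hbig t (by omega)
  have h0 := hbase t (by omega)
  have hlogH : Real.log ((128 ^ t : ℕ) : ℝ) = t * Λ := by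
    rw [Nat.cast_pow, Real.log_pow]; norm_num [hΛ]
  have hHn : (128 ^ t) ^ As R ≤ n := by
    have h1 : (((128 ^ t) ^ As R : ℕ) : ℝ) ≤ n := by
      rw [Nat.cast_pow, ← Real.log_le_log_iff (pow_pos hb.H0 _) hn0, Real.log_pow, hlogH,
        ← hydef]
      calc ((As R : ℕ) : ℝ) * (t * Λ) = t * (A * Λ) := by rw [hA]; ring
        _ ≤ y := ht1
    exact_mod_cast h1
  have hlow := lower_scale hq hq1 hb hc h0 R (by omega) hHn
  have hk := ks_lower R
  have hk' : (40 + (R : ℝ)) * A ≤ 40 * (ks R : ℝ) := by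
    rw [hA]; exact_mod_cast hk
  have hpow : (n : ℝ) ^ (z / 100) * 72 ≤ ((128 ^ t : ℕ) : ℝ) ^ (2 * ks R) := by
    have h72 : (72 : ℝ) ≤ Real.exp y := by
      have := Real.add_one_le_exp y
      linarith
    have e1 : (n : ℝ) ^ (z / 100) = Real.exp (y * (z / 100)) := Real.rpow_def_of_pos hn0 _
    have e2 : ((128 ^ t : ℕ) : ℝ) ^ (2 * ks R) = Real.exp (t * Λ * (2 * ks R : ℤ)) := by
      rw [← Real.rpow_intCast, Real.rpow_def_of_pos hb.H0, hlogH]
    rw [e1, e2]
    refine (mul_le_mul_of_nonneg_left h72 (Real.exp_pos _).le).trans ?_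
    rw [← Real.exp_add]
    apply Real.exp_le_exp.2
    push_cast
    have h1 : 3 / 5 * y ≤ t * (A * Λ) := by linarith
    have ht0 : (0 : ℝ) ≤ t * Λ := by positivity
    have h2 : t * Λ * ((40 + (R : ℝ)) * A) ≤ t * Λ * (40 * (ks R : ℝ)) :=
      mul_le_mul_of_nonneg_left hk' ht0
    have h3 : (40 + (R : ℝ)) * (3 / 5 * y) ≤ (40 + (R : ℝ)) * (t * (A * Λ)) :=
      mul_le_mul_of_nonneg_left h1 (by linarith)
    have h4 : z / 3 * y ≤ (R + 1) * y := mul_le_mul_of_nonneg_right hR1.le hy0.le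
    nlinarith only [h2, h3, h4, hy0]
  linarith

end Vale.Agent.P321.SP
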