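import Vale.Agent.Lib.P321.SQ.Dbl2
import Vale.Agent.Lib.P321.SP.Round2

/-!
P321, quantitative superpolynomial lower bound: one round of the amplification, with the better
constants.
-/

namespace Vale.Agent.P321.SP

open Finset

section

variable {G : Type} [Monoid G]

/-- The first level. -/
theorem level1' {P Qp Qm : Al G} (hP : Prob P) (hQp : Prob Qp) (hQm : Prob Qm) {m : ℕ} {c : ℝ}
    (hc : 0 < c) (hH : Hid P m c) {o e β : ℝ} (ho : 0 ≤ o) (he : 0 ≤ e)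
    (hO : Small ((1 / 2 : ℝ) • (Qp - Qm)) P o β)
    (hE : Small ((1 / 2 : ℝ) • (Qp + Qm) - P) P e β) (h1 : (o + β) + (e + β) ≤ 1)
    (t K0 : ℕ) {g S : ℕ} (hg : g = t * (K0 * (m + 1))) (hS : S = 2 * g + 2 ^ t) {x y : ℝ}
    (hx : x = CD t * ((e + β) + (o + β) ^ 2))
    (hy : y = CD t * ((o + β) * ((e + β) + (o + β) ^ 2))) (hxy : x + y ≤ 1) :
    ∃ Vp Vm O' : Al G, Prob Vp ∧ Prob Vm ∧ Vp = Vm + (2 : ℝ) • O' ∧ Mono P S y O' ∧
      Near P S (x + y) Vm ∧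
      Nrm (win2 t g P Qp Qm - Vp)
        (2 ^ t * (4 * β) + (o + β) * (2 ^ t * (3 / (c * √((K0 : ℝ) + 1)))) ^ t) ∧
      Nrm (win2 t g P Qm Qp - Vm)
        (2 ^ t * (4 * β) + (o + β) * (2 ^ t * (3 / (c * √((K0 : ℝ) + 1)))) ^ t) := by
  have hβ := hO.beta_nonneg
  have mO : mass ((1 / 2 : ℝ) • (Qp - Qm)) = 0 := by
    rw [map_smul, map_sub, hQp.2, hQm.2]; simp
  have mE : mass ((1 / 2 : ℝ) • (Qp + Qm) - P) = 0 := by
    rw [map_sub, map_smul, map_add, hQp.2, hQm.2, hP.2]; norm_num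
  obtain ⟨O, o1, o2, o3⟩ := hat hP ho mO hO
  obtain ⟨E, e1, e2, e3⟩ := hat hP he mE hE
  set o' := o + β with ho'
  set e' := e + β with he'
  have ho0 : 0 ≤ o' := by positivity
  have he0 : 0 ≤ e' := by positivity
  have qprob : ∀ s : ℝ, |s| = 1 → Prob (P + E + s • O) := by
    intro s hs
    refine ⟨?_, by rw [map_add, map_add, map_smul, o1, e1, hP.2]; simp⟩
    have h2 := e2.add (o2.smul s)
    rw [hs, one_smul] at h2
    have h3 := h2.2.add (hP.1.smul (show 0 ≤ 1 - (o' + e') by linarith))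
    convert h3 using 1
    module
  have hA : Prob (P + E + O) := by simpa using qprob 1 (by simp)
  have hB : Prob (P + E - O) := by
    have := qprob (-1) (by simp)
    convert this using 1; module
  have nA : Nrm (Qp - (P + E + O)) (4 * β) := by
    have := e3.add o3
    convert this using 1
    · module
    · ring
  have nB : Nrm (Qm - (P + E - O)) (4 * β) := by
    have := e3.sub o3
    convert this using 1
    · module
    · ring
  have hZ : Near P 1 0 P := by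
    have := Near.self hP 1
    rwa [pow_one] at this
  have MO : Mono P 1 o' O := Mono.base hP ho0 o2 o1
  have ME : Mono P 1 e' E := Mono.base hP he0 e2 e1
  have hCDt := CD_ge_one t
  have hy0 : 0 ≤ y := by rw [hy]; positivity
  obtain ⟨ev, od, d1, d2, d3, d4⟩ := dbl3 hP hZ MO ME t (by simp) (by
    rw [← hx]; linarith)
  rw [one_mul] at d3 d4
  rw [← hx] at d3
  rw [← hy] at d4
  have tp := tm_prob hA hB t
  have tq := tm_prob hQp hQm t
  have mLO := mass_LO P O o1 t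
  have mass_p : mass ev + mass od = 0 := by
    have := tp.1.2
    rw [d1, map_add, map_add, map_add, mLO, map_pow, hP.2, one_pow] at this
    linarith
  have mass_m : mass ev - mass od = 0 := by
    have := tp.2.2
    rw [d2, map_sub, map_add, map_add, mLO, map_pow, hP.2, one_pow] at this
    linarith
  have mev : mass ev = 0 := by linarith
  have mod' : mass od = 0 := by linarith
  have eS : g + 2 ^ t + g = S := by omega
  have dev : Mono P S x (P ^ g * ev * P ^ g) := ((d3.pow_mul hP g).mul_pow g).cast eS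
  have dod : Mono P S y (P ^ g * od * P ^ g) := ((d4.pow_mul hP g).mul_pow g).cast eS
  have vprob : ∀ V : Al G, mass V = 1 → Near P S (x + y) V → Prob V := by
    intro V hV1 hV2
    refine ⟨?_, hV1⟩
    have h2 := (Mono.ab hP hV2).2.add ((hP.1.pow S).smul (show 0 ≤ 1 - (x + y) by linarith))
    convert h2 using 1
    module
  have nVm : Near P S (x + y) (P ^ S + P ^ g * ev * P ^ g - P ^ g * od * P ^ g) := by
    have := dev.sub hP dod
    unfold Near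
    convert this using 1
    abel
  have nVp : Near P S (x + y) (P ^ S + P ^ g * ev * P ^ g + P ^ g * od * P ^ g) := by
    have := dev.add hP dod
    unfold Near
    convert this using 1
    abel
  have pVm := vprob _ (by
    simp only [map_sub, map_add, map_mul, map_pow, hP.2, one_pow, mev, mod']; simp) nVm
  have pVp := vprob _ (by
    simp only [map_add, map_mul, map_pow, hP.2, one_pow, mev, mod']; simp) nVp
  have tn := tm_nrm hQp hQm hA hB nA nB t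
  have hPg := hP.pow g
  have hLO : Nrm (P ^ g * LO P O t * P ^ g)
      (o' * (2 ^ t * (3 / (c * √((K0 : ℝ) + 1)))) ^ t) := by
    have hOn : Nrm O o' := ⟨o' • P, o2, by rw [map_smul, hP.2]; simp⟩
    have := LO_small hP hc hH K0 hOn t
    rwa [← hg] at this
  have ePS : P ^ g * P ^ (2 ^ t) * P ^ g = P ^ S := by
    rw [← pow_add, ← pow_add, eS]
  refine ⟨_, _, P ^ g * od * P ^ g, pVp, pVm, by module, dod, nVm, ?_, ?_⟩
  · have a1 := (hPg.nrm.mul tn.1).mul hPg.nrm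
    have a2 := a1.add hLO
    refine Nrm.mono (b := 1 * (2 ^ t * (4 * β)) * 1 +
      o' * (2 ^ t * (3 / (c * √((K0 : ℝ) + 1)))) ^ t) ?_ (le_of_eq (by ring))
    convert a2 using 1
    unfold win2
    rw [d1, ← ePS]
    noncomm_ring
  · have a1 := (hPg.nrm.mul tn.2).mul hPg.nrm
    have a2 := a1.sub hLO
    refine Nrm.mono (b := 1 * (2 ^ t * (4 * β)) * 1 +
      o' * (2 ^ t * (3 / (c * √((K0 : ℝ) + 1)))) ^ t) ?_ (le_of_eq (by ring))
    convert a2 using 1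
    unfold win2
    rw [d2, ← ePS]
    noncomm_ring

/-- The second level for the truncated windows. -/
theorem level2' {P Vp Vm O' : Al G} (hP : Prob P) (pVm : Prob Vm) {m mU : ℕ} {c x0 y : ℝ}
    (hc : 0 < c) (hH : Hid P m c) (hVid : Hid Vm mU (1 / 2)) {S : ℕ}
    (hV : Vp = Vm + (2 : ℝ) • O') (hO' : Mono P S y O') (hN : Near P S x0 Vm)
    (hy0 : 0 < y) (hyy : y ≤ 1) (t K2 : ℕ) (hCy : 2 * CD t * y ≤ 1) {G' R : ℕ} (hG : G' = t * (K2 * (mU + 1)))
    (hR : R = 2 * G' + 2 ^ t)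
    (Ku K3 a0 : ℕ) (hKu : Ku ≤ G') (hK3 : K3 * (m + 1) ≤ S * Ku)
    (ha : 2 * (a0 : ℝ) ≤ c ^ 2 * K3) {l : ℝ} (hl : 0 ≤ l)
    (hxy : ((2 * Ku + 2 ^ t : ℕ) : ℝ) * x0 ≤ 1 / 2)
    {ε0 tl : ℝ} (hε0 : ε0 = 2 * (l * √(12 / √((a0 : ℝ) + 1)) + 6 * (Ku * x0)))
    (htl : tl = 4 * (2 * Real.exp (-(l ^ 2 / 2)) + Real.exp (-(c ^ 2 * K3 / 8)))) :
    Small (win2 t G' Vm Vm Vp - Vm ^ R) (Vm ^ R)
      ((2 * CD t * y + 2 * CD t * y ^ 2) * ε0)
      (y * (2 ^ t * (3 / (1 / 2 * √((K2 : ℝ) + 1)))) ^ t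
        + (2 * CD t * y + 2 * CD t * y ^ 2) * tl) ∧
    Small (win2 t G' Vm Vp Vm - win2 t G' Vm Vm Vp) (Vm ^ R)
      (2 * (2 * CD t * y ^ 2 * ε0))
      (2 * (y * (2 ^ t * (3 / (1 / 2 * √((K2 : ℝ) + 1)))) ^ t
        + (2 * CD t * y + 2 * CD t * y ^ 2) * tl)) := by
  have hCC := CD_ge_one t
  have hx0 : 0 ≤ x0 := hN.1
  have hMx : ((2 ^ t : ℕ) : ℝ) * x0 ≤ 1 / 2 := by
    push_cast at hxy ⊢
    have : 0 ≤ 2 * (Ku : ℝ) * x0 := by positivity
    linarith only [this, hxy]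
  have hxp : (1 + x0) ^ (2 ^ t) ≤ 2 := by
    have := pow_one_add_le hx0 (2 ^ t) (by linarith only [hMx])
    linarith only [this, hMx]
  have hy2 : y ^ 2 ≤ y := by nlinarith only [hy0, hyy]
  obtain ⟨ev, od, d1, d2, d3, d4⟩ := dbl3 hP hN hO' hO' t hxp (by
    have := mul_le_mul_of_nonneg_left hy2 (show 0 ≤ CD t by linarith only [hCC])
    linarith only [this, hCy])
  have eA : Vm + O' + O' = Vp := by rw [hV]; module
  have eB : Vm + O' - O' = Vm := by abel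
  rw [eA, eB] at d1 d2
  have f1 : 0 < 2 * CD t * y := by positivity
  have f2 : 0 < 2 * CD t * y ^ 2 := by positivity
  have d3' : Mono P (S * 2 ^ t) (2 * CD t * y) ev := d3.mono (by
    have := mul_le_mul_of_nonneg_left hy2 (show 0 ≤ CD t by linarith only [hCC])
    linarith only [this])
  have d4' : Mono P (S * 2 ^ t) (2 * CD t * y ^ 2) od := d4.mono (by
    have h3 : CD t * (y * y ^ 2) ≤ CD t * (y * y) :=
      mul_le_mul_of_nonneg_left (mul_le_mul_of_nonneg_left hy2 hy0.le)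
        (by linarith only [hCC])
    have e : CD t * (y * (y + y ^ 2)) = CD t * y ^ 2 + CD t * (y * y ^ 2) := by ring
    have e2 : CD t * (y * y) = CD t * y ^ 2 := by ring
    rw [e]; linarith only [h3, e2])
  have c1 := context' hP pVm hc hH hN f1 d3' Ku G' K3 a0 hKu hK3 ha hl hxy
  have c2 := context' hP pVm hc hH hN f2 d4' Ku G' K3 a0 hKu hK3 ha hl hxy
  rw [← hε0, ← htl, ← hR] at c1 c2
  have hε0' : 0 ≤ ε0 := by rw [hε0]; positivity
  have htl' : 0 ≤ tl := by rw [htl]; positivity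
  have hLO : Nrm (Vm ^ G' * LO Vm O' t * Vm ^ G')
      (y * (2 ^ t * (3 / (1 / 2 * √((K2 : ℝ) + 1)))) ^ t) := by
    have := LO_small pVm (by norm_num : (0 : ℝ) < 1 / 2) hVid K2 (hO'.nrm hP) t
    rwa [← hG] at this
  set δ2 := y * (2 ^ t * (3 / (1 / 2 * √((K2 : ℝ) + 1)))) ^ t with hδ2
  have ePR : Vm ^ G' * Vm ^ (2 ^ t) * Vm ^ G' = Vm ^ R := by
    rw [← pow_add, ← pow_add, hR]; congr 1; ring
  have eXm : win2 t G' Vm Vm Vp = Vm ^ R + Vm ^ G' * ev * Vm ^ G' -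
      (Vm ^ G' * LO Vm O' t * Vm ^ G' + Vm ^ G' * od * Vm ^ G') := by
    unfold win2
    rw [d2, ← ePR]; noncomm_ring
  have eXp : win2 t G' Vm Vp Vm = Vm ^ R + Vm ^ G' * ev * Vm ^ G' +
      (Vm ^ G' * LO Vm O' t * Vm ^ G' + Vm ^ G' * od * Vm ^ G') := by
    unfold win2
    rw [d1, ← ePR]; noncomm_ring
  constructor
  · have a1 := c1.sub ((Small.of_nrm (Vm ^ R) hLO).add c2)
    have e1 : Vm ^ G' * ev * Vm ^ G' -
        (Vm ^ G' * LO Vm O' t * Vm ^ G' + Vm ^ G' * od * Vm ^ G')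
        = win2 t G' Vm Vm Vp - Vm ^ R := by
      rw [eXm]; abel
    rw [e1] at a1
    refine a1.mono (pVm.pow R).1 (le_of_eq ?_) (le_of_eq ?_)
    · ring
    · ring
  · have a1 := ((Small.of_nrm (Vm ^ R) hLO).add c2).smul 2
    have e1 : (2 : ℝ) • (Vm ^ G' * LO Vm O' t * Vm ^ G' + Vm ^ G' * od * Vm ^ G')
        = win2 t G' Vm Vp Vm - win2 t G' Vm Vm Vp := by
      rw [eXm, eXp]; module
    rw [e1] at a1
    refine a1.mono (pVm.pow R).1 (le_of_eq ?_) ?_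
    · rw [abs_of_pos (by norm_num : (0 : ℝ) < 2)]; ring
    · rw [abs_of_pos (by norm_num : (0 : ℝ) < 2)]
      have : 0 ≤ 2 * CD t * y * tl := by positivity
      linarith only [this]

/-- One round of the amplification. -/
theorem round' {P Qp Qm : Al G} (hP : Prob P) (hQp : Prob Qp) (hQm : Prob Qm) {m : ℕ} {c : ℝ}
    (hc : 0 < c) (hH : Hid P m c) {o e β : ℝ} (ho : 0 < o) (he : 0 ≤ e)
    (hO : Small ((1 / 2 : ℝ) • (Qp - Qm)) P o β)
    (hE : Small ((1 / 2 : ℝ) • (Qp + Qm) - P) P e β) (h1 : (o + β) + (e + β) ≤ 1)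
    (t K0 : ℕ) {g S : ℕ} (hg : g = t * (K0 * (m + 1))) (hS : S = 2 * g + 2 ^ t) {x y : ℝ}
    (hx : x = CD t * ((e + β) + (o + β) ^ 2))
    (hy : y = CD t * ((o + β) * ((e + β) + (o + β) ^ 2)))
    {β1 : ℝ} (hβ1 : β1 = 2 ^ t * (4 * β) + (o + β) * (2 ^ t * (3 / (c * √((K0 : ℝ) + 1)))) ^ t)
    -- hiding of the windows
    (mU K1 : ℕ) (hK1 : K1 * (m + 1) ≤ S * mU) (hU1 : ((mU : ℝ) + 1) * (x + y) ^ 2 ≤ 1 / 32)
    (hU2 : S * (3 / √(c * ((K1 : ℝ) + 1))) ≤ 1 / 3)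
    -- second level
    (K2 : ℕ) {G' R : ℕ} (hG : G' = t * (K2 * (mU + 1))) (hR : R = 2 * G' + 2 ^ t)
    (Ku K3 a0 : ℕ) (hKu : Ku ≤ G') (hK3 : K3 * (m + 1) ≤ S * Ku)
    (ha : 2 * (a0 : ℝ) ≤ c ^ 2 * K3) {l : ℝ} (hl : 0 ≤ l)
    (hxy : ((2 * Ku + 2 ^ t : ℕ) : ℝ) * (x + y) ≤ 1 / 2)
    {ε0 ε1 tl B2 : ℝ} (hε0 : ε0 = 2 * (l * √(12 / √((a0 : ℝ) + 1)) + 6 * (Ku * (x + y))))
    (hε1 : ε1 = (2 * CD t * y + 2 * CD t * y ^ 2) * ε0)
    (htl : tl = 4 * (2 * Real.exp (-(l ^ 2 / 2)) + Real.exp (-(c ^ 2 * K3 / 8))))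
    (hB2 : B2 = R * β1 + (y * (2 ^ t * (3 / (1 / 2 * √((K2 : ℝ) + 1)))) ^ t
      + (2 * CD t * y + 2 * CD t * y ^ 2) * tl))
    (hε1' : ε1 ≤ 1 / 2) (hCy : 2 * CD t * y ≤ 1)
    -- hiding of the new window
    (m2 K4 : ℕ) (hK4 : K4 * (mU + 1) ≤ R * m2)
    (hX1 : ((m2 : ℝ) + 1) * (ε1 + B2) ^ 2 ≤ 1 / 32) (hX2 : ((m2 : ℝ) + 1) * (2 * B2) ≤ 1 / 12)
    (hX3 : R * (3 / √(1 / 2 * ((K4 : ℝ) + 1))) ≤ 1 / 3) :
    Hid (win2 t G' (win2 t g P Qm Qp) (win2 t g P Qm Qp) (win2 t g P Qp Qm)) m2 (1 / 2) ∧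
    Small (win2 t G' (win2 t g P Qm Qp) (win2 t g P Qp Qm) (win2 t g P Qm Qp)
      - win2 t G' (win2 t g P Qm Qp) (win2 t g P Qm Qp) (win2 t g P Qp Qm))
      (win2 t G' (win2 t g P Qm Qp) (win2 t g P Qm Qp) (win2 t g P Qp Qm))
      (4 * (2 * CD t * y ^ 2 * ε0)) (4 * B2) := by
  have hβ := hO.beta_nonneg
  have hCC := CD_ge_one t
  have ho0 : 0 < o + β := by positivity
  have he0 : 0 ≤ e + β := by positivity
  have hx0 : 0 ≤ x := by rw [hx]; positivity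
  have hy0 : 0 < y := by rw [hy]; positivity
  have h2t : (1 : ℝ) ≤ ((2 ^ t : ℕ) : ℝ) := by
    have := Nat.one_le_two_pow (n := t)
    exact_mod_cast this
  have hxy1 : x + y ≤ 1 / 2 := by
    push_cast at hxy h2t
    have h3 : 0 ≤ 2 * (Ku : ℝ) * (x + y) := by positivity
    have h4 : 1 * (x + y) ≤ 2 ^ t * (x + y) :=
      mul_le_mul_of_nonneg_right h2t (by positivity)
    linarith only [hxy, h3, h4]
  have hyy : y ≤ 1 := by linarith only [hxy1, hx0]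
  obtain ⟨Vp, Vm, O', pVp, pVm, hV, hO', hN, n1, n2⟩ :=
    level1' hP hQp hQm hc hH ho.le he hO hE h1 t K0 hg hS hx hy (by linarith only [hxy1])
  rw [← hβ1] at n1 n2
  have hVid : Hid Vm mU (1 / 2) := by
    refine hide hP pVm hc hH (η := x + y) (β := 0) (by positivity)
      (Small.of_ab (Mono.ab hP hN)) mU K1 hK1 ?_ (by norm_num) hU2
    rw [add_zero]; exact hU1
  have hl2 := level2' hP pVm hc hH hVid hV hO' hN hy0 hyy t K2 hCy hG hR Ku K3 a0 hKu hK3 ha hl hxy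
    hε0 htl
  have hε0' : 0 ≤ ε0 := by rw [hε0]; positivity
  have hε1'' : 0 ≤ ε1 := by rw [hε1]; positivity
  have hf2e : 2 * CD t * y ^ 2 * ε0 ≤ 1 / 2 := by
    have h4 : 0 ≤ 2 * CD t * y * ε0 := by positivity
    have h3 : ε1 = 2 * CD t * y * ε0 + 2 * CD t * y ^ 2 * ε0 := by rw [hε1]; ring
    linarith only [h3, h4, hε1']
  rw [← hε1] at hl2
  have pUp : Prob (win2 t g P Qp Qm) := ((hP.pow g).mul (tm_prob hQp hQm t).1).mul (hP.pow g)
  have pUm : Prob (win2 t g P Qm Qp) := ((hP.pow g).mul (tm_prob hQp hQm t).2).mul (hP.pow g)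
  exact round_fin pVp pVm pUp pUm hVid n1 n2 t hR hε1'' (by positivity) hl2.1 hl2.2 hB2 hε1'
    hf2e m2 K4 hK4 hX1 hX2 hX3

end

end Vale.Agent.P321.SP
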