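import Vale.Agent.Lib.P321.SQ.Calc

/-!
P321, quantitative superpolynomial lower bound: sizes of the quantities of one round.
-/

namespace Vale.Agent.P321.SP

open Finset

noncomputable def xq (t : ℕ) (H : ℝ) (a e τ : ℤ) : ℝ :=
  CD t * ((H ^ (-e) + H ^ (-τ)) + (H ^ (-a) + H ^ (-τ)) ^ 2)
noncomputable def yq (t : ℕ) (H : ℝ) (a e τ : ℤ) : ℝ :=
  CD t * ((H ^ (-a) + H ^ (-τ)) * ((H ^ (-e) + H ^ (-τ)) + (H ^ (-a) + H ^ (-τ)) ^ 2))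
noncomputable def b1q (c : ℝ) (t H : ℕ) (a τ : ℤ) : ℝ :=
  2 ^ t * (4 * (H : ℝ) ^ (-τ)) +
    ((H : ℝ) ^ (-a) + (H : ℝ) ^ (-τ)) * (2 ^ t * (3 / (c * √(((H ^ 4 : ℕ) : ℝ) + 1)))) ^ t
noncomputable def a0q (c : ℝ) (H w : ℕ) : ℕ := ⌊c ^ 2 * ((H ^ (4 * w + 1) : ℕ) : ℝ) / 2⌋₊
noncomputable def e0q (c : ℝ) (t H w : ℕ) (a e τ : ℤ) : ℝ :=
  2 * ((H : ℝ) * √(12 / √((a0q c H w : ℝ) + 1)) +
    6 * (((H ^ (4 * w + 1) : ℕ) : ℝ) * (xq t H a e τ + yq t H a e τ)))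
noncomputable def e1q (c : ℝ) (t H w : ℕ) (a e τ : ℤ) : ℝ :=
  (2 * CD t * yq t H a e τ + 2 * CD t * yq t H a e τ ^ 2) * e0q c t H w a e τ
noncomputable def tlq (c : ℝ) (H w : ℕ) : ℝ :=
  4 * (2 * Real.exp (-((H : ℝ) ^ 2 / 2)) +
    Real.exp (-(c ^ 2 * ((H ^ (4 * w + 1) : ℕ) : ℝ) / 8)))
noncomputable def B2q (c : ℝ) (D t H A w : ℕ) (a e τ : ℤ) : ℝ :=
  (RH D t H A : ℝ) * b1q c t H a τ +
    (yq t H a e τ * (2 ^ t * (3 / (1 / 2 * √(((H ^ 4 : ℕ) : ℝ) + 1)))) ^ t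
      + (2 * CD t * yq t H a e τ + 2 * CD t * yq t H a e τ ^ 2) * tlq c H w)

/-- The conditions on the exponents of one round. -/
structure Expq (t A w : ℕ) (a e τ ξ : ℤ) : Prop where
  h1 : ξ ≤ e
  h2 : ξ ≤ 2 * a
  h3 : ξ ≤ τ
  h4 : a ≤ τ
  h5 : 2 ≤ a
  h6 : (A : ℤ) + 11 ≤ ξ
  h7 : 1 ≤ w
  h8 : 4 * w + 1 ≤ A
  h9 : 5 * (w : ℤ) + 5 ≤ ξ
  h10 : 2 * (A : ℤ) + 29 ≤ a + ξ + w
  h11 : 2 * (A : ℤ) + 12 + a + ξ + w ≤ τ
  h12 : 6 * (A : ℤ) + 56 ≤ τ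
  h13 : τ ≤ t

namespace Bigq

variable {c : ℝ} {D t H : ℕ} (hb : Bigq c D t H) {A w : ℕ} {a e τ ξ : ℤ}
  (he : Expq t A w a e τ ξ)

include hb he

theorem lo : Lq H ((H : ℝ) ^ (-a) + (H : ℝ) ^ (-τ)) (1 - a) := by
  have h4 := he.h4
  exact (Lq.add hb.H2 (Lq.zpow hb.H0' (-a)) ((Lq.zpow hb.H0' (-τ)).mono hb.H1 (by omega))).mono
    hb.H1 (by omega)

theorem le' : Lq H ((H : ℝ) ^ (-e) + (H : ℝ) ^ (-τ)) (1 - ξ) := by
  have h1 := he.h1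
  have h3 := he.h3
  exact (Lq.add hb.H2 ((Lq.zpow hb.H0' (-e)).mono hb.H1 (show -e ≤ -ξ by omega))
    ((Lq.zpow hb.H0' (-τ)).mono hb.H1 (by omega))).mono hb.H1 (by omega)

theorem lu : Lq H (((H : ℝ) ^ (-e) + (H : ℝ) ^ (-τ)) + ((H : ℝ) ^ (-a) + (H : ℝ) ^ (-τ)) ^ 2)
    (3 - ξ) := by
  have h2 := he.h2
  exact (Lq.add hb.H2 ((hb.le' he).mono hb.H1 (show 1 - ξ ≤ 2 - ξ by omega))
    ((hb.lo he).sq.mono hb.H1 (by omega))).mono hb.H1 (by omega)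

theorem lx : Lq H (xq t H a e τ) (4 - ξ) := by
  unfold xq
  exact (hb.lCD.mul hb.H1 (hb.lu he)).mono hb.H1 (by omega)

theorem ly : Lq H (yq t H a e τ) (5 - a - ξ) := by
  unfold yq
  exact (hb.lCD.mul hb.H1 ((hb.lo he).mul hb.H1 (hb.lu he))).mono hb.H1 (by omega)

theorem lxy : Lq H (xq t H a e τ + yq t H a e τ) (5 - ξ) := by
  have h5 := he.h5
  exact (Lq.add hb.H2 (hb.lx he) ((hb.ly he).mono hb.H1 (by omega))).mono hb.H1 (by omega)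

theorem lCy : Lq H (2 * CD t * yq t H a e τ + 2 * CD t * yq t H a e τ ^ 2) (8 - a - ξ) := by
  have h5 := he.h5
  have h6 := he.h6
  have h := hb.ly he
  have h2 := (hb.lc (a := 2) (by norm_num) (by norm_num)).mul hb.H1 hb.lCD
  exact (Lq.add hb.H2 ((h2.mul hb.H1 h).mono hb.H1 (show _ ≤ 7 - a - ξ by omega))
    ((h2.mul hb.H1 h.sq).mono hb.H1 (by omega))).mono hb.H1 (by omega)

theorem cond1 : ((H : ℝ) ^ (-a) + (H : ℝ) ^ (-τ)) + ((H : ℝ) ^ (-e) + (H : ℝ) ^ (-τ)) ≤ 1 := by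
  have h5 := he.h5
  have h6 := he.h6
  have h := Lq.add hb.H2 ((hb.lo he).mono hb.H1 (show _ ≤ (-1 : ℤ) by omega))
    ((hb.le' he).mono hb.H1 (show _ ≤ (-1 : ℤ) by omega))
  have := h.2
  simpa using this

theorem cond2 : ((UH D t H A : ℝ) + 1) * (xq t H a e τ + yq t H a e τ) ^ 2 ≤ 1 / 32 := by
  have h6 := he.h6
  have h := (hb.lU1 A).mul hb.H1 (hb.lxy he).sq
  refine h.small hb.H1 (by omega) ?_
  have := hb.h0
  linarith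

theorem cond3 : ((2 * H ^ (4 * w + 1) + 2 ^ t : ℕ) : ℝ) * (xq t H a e τ + yq t H a e τ)
    ≤ 1 / 2 := by
  have h6 := he.h6
  have h8 := he.h8
  have h := (Lq.add hb.H2 ((hb.lc (a := 2) (by norm_num) (by norm_num)).mul hb.H1
    (hb.lpow (4 * w + 1))) (hb.l2t.mono hb.H1 (show (1 : ℤ) ≤ 1 + ((4 * w + 1 : ℕ) : ℤ) by
      push_cast; omega))).mul hb.H1 (hb.lxy he)
  have e : ((2 * H ^ (4 * w + 1) + 2 ^ t : ℕ) : ℝ) = 2 * (H : ℝ) ^ (4 * w + 1) + 2 ^ t := by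
    push_cast; ring
  rw [e]
  refine h.small hb.H1 (by push_cast; omega) ?_
  have := hb.h0
  linarith

omit he in
theorem la0 : (H : ℝ) ^ (4 * w) ≤ (a0q c H w : ℝ) + 1 := by
  have h1 := Nat.lt_floor_add_one (c ^ 2 * ((H ^ (4 * w + 1) : ℕ) : ℝ) / 2)
  have h2 := hb.hc2
  have h3 : (0 : ℝ) ≤ (H : ℝ) ^ (4 * w) := pow_nonneg hb.H0' _
  have e : c ^ 2 * ((H ^ (4 * w + 1) : ℕ) : ℝ) / 2 = (c ^ 2 * H) * (H : ℝ) ^ (4 * w) / 2 := by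
    push_cast; ring
  rw [a0q]
  rw [e] at h1 ⊢
  nlinarith only [h1, h2, h3]

theorem le0 : Lq H (e0q c t H w a e τ) (4 - w) := by
  have h9 := he.h9
  have hH := hb.H0
  have h1 : √(12 / √((a0q c H w : ℝ) + 1)) ≤ 4 * (H : ℝ) ^ (-(w : ℤ)) := by
    have h2 : (H : ℝ) ^ (2 * w) ≤ √((a0q c H w : ℝ) + 1) := by
      apply Real.le_sqrt_of_sq_le
      rw [← pow_mul, show 2 * w * 2 = 4 * w by ring]
      exact hb.la0
    have h3 : (0 : ℝ) < (H : ℝ) ^ (2 * w) := pow_pos hH _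
    have h4 : 12 / √((a0q c H w : ℝ) + 1) ≤ 12 / (H : ℝ) ^ (2 * w) :=
      div_le_div_of_nonneg_left (by norm_num) h3 h2
    have h5 : 12 / (H : ℝ) ^ (2 * w) ≤ (4 * (H : ℝ) ^ (-(w : ℤ))) ^ 2 := by
      rw [mul_pow, zpow_neg, zpow_natCast, inv_pow, ← pow_mul, mul_comm w 2, div_eq_mul_inv]
      have : (0 : ℝ) ≤ ((H : ℝ) ^ (2 * w))⁻¹ := by positivity
      linarith
    refine (Real.sqrt_le_sqrt (h4.trans h5)).trans (le_of_eq ?_)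
    exact Real.sqrt_sq (by positivity)
  have h2 : Lq H (√(12 / √((a0q c H w : ℝ) + 1))) (1 - w) := by
    refine ⟨Real.sqrt_nonneg _, h1.trans ?_⟩
    have := ((hb.lc (a := 4) (by norm_num) (by norm_num)).mul hb.H1 (Lq.zpow hb.H0' (-(w : ℤ)))).2
    exact this.trans (le_of_eq (by congr 1))
  have h3 : Lq H (H : ℝ) 1 := ⟨hb.H0', by rw [zpow_one]⟩
  have h4 := h3.mul hb.H1 h2
  have h5 := (hb.lc (a := 6) (by norm_num) (by norm_num)).mul hb.H1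
    ((hb.lpow (4 * w + 1)).mul hb.H1 (hb.lxy he))
  have h6 := (hb.lc (a := 2) (by norm_num) (by norm_num)).mul hb.H1
    (Lq.add hb.H2 (h4.mono hb.H1 (show _ ≤ 2 - (w : ℤ) by omega))
      (h5.mono hb.H1 (by push_cast; omega)))
  unfold e0q
  rw [Nat.cast_pow]
  exact h6.mono hb.H1 (by omega)

theorem le1 : Lq H (e1q c t H w a e τ) (12 - a - ξ - w) := by
  unfold e1q
  exact ((hb.lCy he).mul hb.H1 (hb.le0 he)).mono hb.H1 (by omega)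

theorem ltl : Lq H (tlq c H w) (-τ) := by
  have h7 := he.h7
  have h13 := he.h13
  refine ⟨by unfold tlq; positivity, ?_⟩
  have h1 : (H : ℝ) ^ (-(t : ℤ)) ≤ (H : ℝ) ^ (-τ) := zpow_le_zpow_right₀ hb.H1 (by omega)
  refine le_trans ?_ (hb.htl.trans h1)
  unfold tlq
  have h2 : (H : ℝ) ^ 5 ≤ ((H ^ (4 * w + 1) : ℕ) : ℝ) := by
    rw [Nat.cast_pow]
    exact pow_le_pow_right₀ hb.H1 (by omega)
  have h3 : Real.exp (-(c ^ 2 * ((H ^ (4 * w + 1) : ℕ) : ℝ) / 8)) ≤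
      Real.exp (-(c ^ 2 * (H : ℝ) ^ 5 / 8)) := by
    apply Real.exp_le_exp.2
    have := mul_le_mul_of_nonneg_left h2 (sq_nonneg c)
    linarith
  linarith

theorem lsm {κ : ℝ} (hκ : 0 < κ) (hκ2 : 3 * (2 : ℝ) ^ t ≤ κ * H) :
    Lq H ((2 ^ t * (3 / (κ * √(((H ^ 4 : ℕ) : ℝ) + 1)))) ^ t) (-τ) := by
  have h13 := he.h13
  have hH := hb.H0
  have h2 : (H : ℝ) ^ 2 ≤ √(((H ^ 4 : ℕ) : ℝ) + 1) := by
    apply Real.le_sqrt_of_sq_le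
    rw [Nat.cast_pow, ← pow_mul]
    norm_num
  have h3 : (0 : ℝ) < (H : ℝ) ^ 2 := pow_pos hH _
  have h4 : 2 ^ t * (3 / (κ * √(((H ^ 4 : ℕ) : ℝ) + 1))) ≤ (H : ℝ)⁻¹ := by
    have h5 : 3 / (κ * √(((H ^ 4 : ℕ) : ℝ) + 1)) ≤ 3 / (κ * (H : ℝ) ^ 2) :=
      div_le_div_of_nonneg_left (by norm_num) (by positivity)
        (mul_le_mul_of_nonneg_left h2 hκ.le)
    have h6 : 2 ^ t * (3 / (κ * (H : ℝ) ^ 2)) ≤ (H : ℝ)⁻¹ := by
      rw [mul_div_assoc', div_le_iff₀ (by positivity)]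
      have : (H : ℝ)⁻¹ * (κ * (H : ℝ) ^ 2) = κ * H := by field_simp
      rw [this]; linarith
    exact (mul_le_mul_of_nonneg_left h5 (by positivity)).trans h6
  have h7 : 0 ≤ 2 ^ t * (3 / (κ * √(((H ^ 4 : ℕ) : ℝ) + 1))) := by positivity
  refine ⟨pow_nonneg h7 t, ?_⟩
  calc (2 ^ t * (3 / (κ * √(((H ^ 4 : ℕ) : ℝ) + 1)))) ^ t ≤ ((H : ℝ)⁻¹) ^ t :=
        pow_le_pow_left₀ h7 h4 t
    _ = (H : ℝ) ^ (-(t : ℤ)) := by rw [zpow_neg, zpow_natCast, inv_pow]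
    _ ≤ _ := zpow_le_zpow_right₀ hb.H1 (by omega)

theorem lb1 : Lq H (b1q c t H a τ) (3 - τ) := by
  have h5 := he.h5
  unfold b1q
  have h1 := hb.l2t.mul hb.H1 ((hb.lc (a := 4) (by norm_num) (by norm_num)).mul hb.H1
    (Lq.zpow hb.H0' (-τ)))
  have h2 := (hb.lo he).mul hb.H1 (hb.lsm he hb.c0 hb.hc)
  exact (Lq.add hb.H2 (h1.mono hb.H1 (show _ ≤ 2 - τ by omega))
    (h2.mono hb.H1 (by omega))).mono hb.H1 (by omega)

theorem lB2 : Lq H (B2q c D t H A w a e τ) (2 * A + 22 - τ) := by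
  have h5 := he.h5
  have h6 := he.h6
  unfold B2q
  have h1 := (hb.lR A).mul hb.H1 (hb.lb1 he)
  have h2 := (hb.ly he).mul hb.H1 (hb.lsm he (κ := 1 / 2) (by norm_num) (by
    have := hb.h2
    linarith))
  have h3 := (hb.lCy he).mul hb.H1 (hb.ltl he)
  have h4 := Lq.add hb.H2 (h2.mono hb.H1 (show _ ≤ -τ by omega)) (h3.mono hb.H1 (by omega))
  exact (Lq.add hb.H2 (h1.mono hb.H1 (show _ ≤ 2 * (A : ℤ) + 21 - τ by omega))
    (h4.mono hb.H1 (by omega))).mono hb.H1 (by omega)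

theorem cond4 : e1q c t H w a e τ ≤ 1 / 2 := by
  have h10 := he.h10
  refine (hb.le1 he).small hb.H1 (by omega) ?_
  have := hb.h0
  linarith

theorem condCy : 2 * CD t * yq t H a e τ ≤ 1 := by
  have h5 := he.h5
  have h6 := he.h6
  have h := ((hb.lc (a := 2) (by norm_num) (by norm_num)).mul hb.H1 hb.lCD).mul hb.H1 (hb.ly he)
  refine h.small hb.H1 (by omega) ?_
  have := hb.h0
  linarith

theorem cond5 : ((MH D t H A : ℝ) + 1) * (e1q c t H w a e τ + B2q c D t H A w a e τ) ^ 2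
    ≤ 1 / 32 := by
  have h10 := he.h10
  have h11 := he.h11
  have h1 := Lq.add hb.H2 (hb.le1 he) ((hb.lB2 he).mono hb.H1 (by omega))
  have h := (hb.lM1 A).mul hb.H1 h1.sq
  refine h.small hb.H1 (by omega) ?_
  have := hb.h0
  linarith

theorem cond6 : ((MH D t H A : ℝ) + 1) * (2 * B2q c D t H A w a e τ) ≤ 1 / 12 := by
  have h12 := he.h12
  have h := (hb.lM1 A).mul hb.H1 ((hb.lc (a := 2) (by norm_num) (by norm_num)).mul hb.H1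
    (hb.lB2 he))
  refine h.small hb.H1 (by omega) ?_
  have := hb.h0
  linarith

theorem out1 : 4 * (2 * CD t * yq t H a e τ ^ 2 * e0q c t H w a e τ)
    ≤ (H : ℝ) ^ (17 - 2 * (a + ξ) - w) := by
  have h := (hb.lc (a := 4) (by norm_num) (by norm_num)).mul hb.H1
    ((((hb.lc (a := 2) (by norm_num) (by norm_num)).mul hb.H1 hb.lCD).mul hb.H1
      (hb.ly he).sq).mul hb.H1 (hb.le0 he))
  exact (h.mono hb.H1 (by omega)).2

theorem out2 : 4 * B2q c D t H A w a e τ ≤ (H : ℝ) ^ (2 * A + 23 - τ) := by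
  have h := (hb.lc (a := 4) (by norm_num) (by norm_num)).mul hb.H1 (hb.lB2 he)
  exact (h.mono hb.H1 (by omega)).2

end Bigq

end Vale.Agent.P321.SP
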