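import Vale.Agent.Lib.P321.SQ.Step

/-!
P321, quantitative superpolynomial lower bound: one round at the scale `H ^ A`.
-/

namespace Vale.Agent.P321.SP

open Finset

/-- The data needed at scale `H ^ A`. -/
structure DatH (q : ℝ) (H A : ℕ) (c : ℝ) (a e τ : ℤ) (p yp ym : Bw) : Prop where
  len1 : yp.length = p.length
  len2 : ym.length = p.length
  len : p.length ≤ H ^ A
  ne : yp ≠ ym
  hid : Hid (dl q p) (H ^ A) c
  hO : Small ((1 / 2 : ℝ) • (dl q yp - dl q ym)) (dl q p) ((H : ℝ) ^ (-a)) ((H : ℝ) ^ (-τ))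
  hE : Small ((1 / 2 : ℝ) • (dl q yp + dl q ym) - dl q p) (dl q p) ((H : ℝ) ^ (-e))
    ((H : ℝ) ^ (-τ))

namespace Bigq

variable {c : ℝ} {D t H : ℕ} (hb : Bigq c D t H)

include hb

omit hb in
theorem nt1 {A w : ℕ} {a e τ ξ : ℤ} (he : Expq t A w a e τ ξ) : 1 ≤ t := by
  have h12 := he.h12
  have h13 := he.h13
  omega

theorem hSm {A w : ℕ} {a e τ ξ : ℤ} (he : Expq t A w a e τ ξ) : H ^ A + 1 ≤ SH t H A := by
  have h1 := nt1 he
  have h2 : 1 ≤ H ^ 4 := Nat.one_le_pow _ _ hb.n1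
  have h3 : H ^ A + 1 ≤ H ^ 4 * (H ^ A + 1) := Nat.le_mul_of_pos_left _ h2
  have h4 : H ^ 4 * (H ^ A + 1) ≤ t * (H ^ 4 * (H ^ A + 1)) := Nat.le_mul_of_pos_left _ h1
  have h5 := h3.trans h4
  have h6 := Nat.one_le_two_pow (n := t)
  unfold SH gH
  generalize t * (H ^ 4 * (H ^ A + 1)) = z at h5 ⊢
  omega

theorem hD1 : 1 ≤ D := by
  rcases Nat.eq_zero_or_pos D with h | h
  · have := hb.hcD
    rw [h] at this
    norm_num at this
  · exact h

theorem hKuG {A w : ℕ} {a e τ ξ : ℤ} (he : Expq t A w a e τ ξ) :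
    H ^ (4 * w + 1) ≤ GH D t H A := by
  have h1 := nt1 he
  have h2 : 1 ≤ H ^ 4 := Nat.one_le_pow _ _ hb.n1
  have h3 : H ^ (4 * w + 1) ≤ H ^ A := Nat.pow_le_pow_right hb.n1 he.h8
  have h4 : H ^ A + 1 ≤ UH D t H A := by
    unfold UH
    refine Nat.le_mul_of_pos_left _ (Nat.mul_pos hb.hD1 ?_)
    have := hb.hSm he
    omega
  have h5 : UH D t H A + 1 ≤ H ^ 4 * (UH D t H A + 1) := Nat.le_mul_of_pos_left _ h2
  have h6 : H ^ 4 * (UH D t H A + 1) ≤ t * (H ^ 4 * (UH D t H A + 1)) :=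
    Nat.le_mul_of_pos_left _ h1
  have h7 := h5.trans h6
  unfold GH
  omega

omit hb in
theorem hR1 (A : ℕ) : 1 ≤ RH D t H A := by
  unfold RH
  have := Nat.one_le_two_pow (n := t)
  omega

theorem len_bound {A L : ℕ} (hL : L ≤ H ^ A) :
    RH D t H A * (SH t H A * L) ≤ H ^ (4 * A + 30) := by
  have h1 := (hb.lR A).mul hb.H1 ((hb.lS A).mul hb.H1 (hb.lpow A))
  have h2 := (h1.mono hb.H1 (show _ ≤ ((4 * A + 30 : ℕ) : ℤ) by push_cast; omega)).2
  rw [zpow_natCast] at h2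
  have h3 : ((RH D t H A * (SH t H A * H ^ A) : ℕ) : ℝ) ≤ ((H ^ (4 * A + 30) : ℕ) : ℝ) := by
    push_cast; exact h2
  have h4 : RH D t H A * (SH t H A * H ^ A) ≤ H ^ (4 * A + 30) := by exact_mod_cast h3
  exact (Nat.mul_le_mul le_rfl (Nat.mul_le_mul le_rfl hL)).trans h4

theorem M_bound (A : ℕ) : MH D t H A ≤ H ^ (4 * A + 30) := by
  have h2 := ((hb.lM A).mono hb.H1 (show _ ≤ ((4 * A + 30 : ℕ) : ℤ) by push_cast; omega)).2
  rw [zpow_natCast] at h2
  exact_mod_cast h2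

theorem roundH {q : ℝ} (hq : 0 < q) (hq1 : q < 1) {A w : ℕ} {a e τ ξ : ℤ}
    (he : Expq t A w a e τ ξ) {p yp ym : Bw} (hdat : DatH q H A c a e τ p yp ym) :
    ∃ x y : Bw, x ≠ y ∧ y.length = x.length ∧ x.length ≤ H ^ (4 * A + 30) ∧
      Hid (dl q x) (H ^ (4 * A + 30)) (1 / 2) ∧
      Small (dl q y - dl q x) (dl q x) ((H : ℝ) ^ (17 - 2 * (a + ξ) - w))
        ((H : ℝ) ^ (2 * A + 23 - τ)) := by
  have pP := dl_prob hq.le hq1.le p
  have pYp := dl_prob hq.le hq1.le yp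
  have pYm := dl_prob hq.le hq1.le ym
  have hS := hb.hSm he
  have hS1 : 1 ≤ SH t H A := by omega
  have hpos : ∀ n : ℤ, (0 : ℝ) < (H : ℝ) ^ n := fun n => zpow_pos hb.H0 n
  have hr := round' pP pYp pYm hb.c0 hdat.hid (o := (H : ℝ) ^ (-a)) (e := (H : ℝ) ^ (-e))
    (β := (H : ℝ) ^ (-τ)) (hpos _) (hpos _).le hdat.hO hdat.hE (hb.cond1 he) t (H ^ 4)
    (g := gH t H A) (S := SH t H A) rfl rfl (x := xq t H a e τ) (y := yq t H a e τ) rfl rfl
    (β1 := b1q c t H a τ) rfl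
    (UH D t H A) (D * SH t H A * SH t H A)
    (le_of_eq (by rw [UH]; ring)) (hb.cond2 he)
    (three (SH t H A) _ hS1 (by
      push_cast
      have h3 : 0 ≤ (SH t H A : ℝ) ^ 2 := by positivity
      have h4 := mul_le_mul_of_nonneg_right hb.hcD h3
      have h5 := hb.c0
      nlinarith only [h4, h5]))
    (H ^ 4) (G' := GH D t H A) (R := RH D t H A) rfl rfl (H ^ (4 * w + 1)) (H ^ (4 * w + 1))
    (a0q c H w) (hb.hKuG he)
    (by rw [mul_comm]; exact Nat.mul_le_mul hS le_rfl)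
    (by
      rw [a0q]
      have h5 := hb.c0
      have := Nat.floor_le (show 0 ≤ c ^ 2 * ((H ^ (4 * w + 1) : ℕ) : ℝ) / 2 by positivity)
      linarith only [this])
    (l := (H : ℝ)) hb.H0' (hb.cond3 he) (ε0 := e0q c t H w a e τ)
    (ε1 := e1q c t H w a e τ) (tl := tlq c H w) (B2 := B2q c D t H A w a e τ) rfl rfl rfl rfl
    (hb.cond4 he) (hb.condCy he)
    (MH D t H A) (162 * RH D t H A * RH D t H A) (le_of_eq (by rw [MH]; ring)) (hb.cond5 he)
    (hb.cond6 he)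
    (three (RH D t H A) _ (hR1 A) (by
      push_cast
      nlinarith only [sq_nonneg (RH D t H A : ℝ)]))
  rw [← win2_map, ← win2_map, ← win2_map, ← win2_map] at hr
  have lp : yp.length = p.length := hdat.len1
  have lm : ym.length = p.length := hdat.len2
  have lU1 := win2_length t (gH t H A) rfl lm lp
  have lU2 := win2_length t (gH t H A) rfl lp lm
  have lX1 := win2_length t (GH D t H A) lU1 lU1 lU2
  have lX2 := win2_length t (GH D t H A) lU1 lU2 lU1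
  have pX : Prob (dl q (win2 t (GH D t H A) (win2 t (gH t H A) p ym yp)
      (win2 t (gH t H A) p ym yp) (win2 t (gH t H A) p yp ym))) := dl_prob hq.le hq1.le _
  refine ⟨win2 t (GH D t H A) (win2 t (gH t H A) p ym yp) (win2 t (gH t H A) p ym yp)
      (win2 t (gH t H A) p yp ym),
    win2 t (GH D t H A) (win2 t (gH t H A) p ym yp) (win2 t (gH t H A) p yp ym)
      (win2 t (gH t H A) p ym yp),
    ?_, ?_, ?_, hr.1.mono_m pX (hb.M_bound A), hr.2.mono pX.1 (hb.out1 he) (hb.out2 he)⟩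
  · apply win2_ne t (GH D t H A) (by rw [lU1, lU2])
    apply win2_ne t (gH t H A) (by rw [lm, lp]) hdat.ne.symm
  · rw [lX1, lX2]
  · rw [lX1]
    exact hb.len_bound hdat.len

end Bigq

end Vale.Agent.P321.SP
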